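import Mathlib.MeasureTheory.Integral.Bochner.Set
import Mathlib.MeasureTheory.Integral.MeanInequalities
import Mathlib.Analysis.SpecialFunctions.Pow.Continuity
import Mathlib.Analysis.SpecialFunctions.Pow.Asymptotics
import Mathlib.MeasureTheory.Constructions.BorelSpace.Basic
import Vale.Agent.P272.K.AMP.ABP.Meas

/-!
# Step 11 of the ampleness proof: splitting at `G = L` and the final arithmetic
-/

open scoped Topology
open MeasureTheory Set Filter

set_option linter.all false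

noncomputable section

namespace Vale.Agent.P272.K.AMP.Main

open ABP (integrable_cont)

/-- `y ≤ a + b (1 + c y)^p` with `p ≤ 3/4` bounds `y` -/
lemma bound_of_sublinear {a b c p : ℝ} (ha : 0 ≤ a) (hb : 0 ≤ b) (hc : 0 ≤ c) (hp0 : 0 ≤ p)
    (hp : p ≤ 3 / 4) : ∃ M : ℝ, 0 < M ∧ ∀ y : ℝ, 0 ≤ y → y ≤ a + b * (1 + c * y) ^ p → y ≤ M := by
  -- for `y ≥ 1`: `(1 + c y)^p ≤ ((1 + c) y)^(3/4)`
  set k : ℝ := a + b * (1 + c) ^ (3 / 4 : ℝ) with hk
  have hk0 : 0 ≤ k := by positivity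
  refine ⟨1 + k ^ (4 : ℕ), by positivity, fun y hy h => ?_⟩
  rcases le_or_gt y 1 with h1 | h1
  · have : 0 ≤ k ^ (4 : ℕ) := by positivity
    linarith
  have hy0 : 0 < y := by linarith
  have h2 : (1 + c * y) ^ p ≤ (1 + c) ^ (3 / 4 : ℝ) * y ^ (3 / 4 : ℝ) := by
    calc (1 + c * y) ^ p ≤ (1 + c * y) ^ (3 / 4 : ℝ) :=
          Real.rpow_le_rpow_of_exponent_le (by nlinarith) hp
      _ ≤ ((1 + c) * y) ^ (3 / 4 : ℝ) :=
          Real.rpow_le_rpow (by positivity) (by nlinarith) (by norm_num)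
      _ = _ := Real.mul_rpow (by positivity) hy0.le
  have h3 : (1 : ℝ) ≤ y ^ (3 / 4 : ℝ) := Real.one_le_rpow h1.le (by norm_num)
  have h4 : y ≤ k * y ^ (3 / 4 : ℝ) := by
    calc y ≤ a + b * (1 + c * y) ^ p := h
      _ ≤ a * y ^ (3 / 4 : ℝ) + b * ((1 + c) ^ (3 / 4 : ℝ) * y ^ (3 / 4 : ℝ)) :=
          add_le_add (le_mul_of_one_le_right ha h3) (mul_le_mul_of_nonneg_left h2 hb)
      _ = _ := by rw [hk]; ring
  have h5 : y ^ (1 / 4 : ℝ) ≤ k := by
    have h6 : y = y ^ (1 / 4 : ℝ) * y ^ (3 / 4 : ℝ) := by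
      rw [← Real.rpow_add hy0]; norm_num
    rw [h6] at h4
    have h7 : 0 < y ^ (3 / 4 : ℝ) := by positivity
    have h8 : (y ^ (1 / 4 : ℝ) * y ^ (3 / 4 : ℝ)) ^ (3 / 4 : ℝ) = y ^ (3 / 4 : ℝ) := by
      rw [← h6]
    rw [h8] at h4
    exact le_of_mul_le_mul_right h4 h7
  have h6 : y = (y ^ (1 / 4 : ℝ)) ^ (4 : ℕ) := by
    rw [← Real.rpow_natCast, ← Real.rpow_mul hy0.le]; norm_num
  rw [h6]
  have : (y ^ (1 / 4 : ℝ)) ^ (4 : ℕ) ≤ k ^ (4 : ℕ) := pow_le_pow_left₀ (by positivity) h5 4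
  linarith

variable {X : Type*} [TopologicalSpace X] [CompactSpace X] [MeasurableSpace X] [BorelSpace X]

/-- Cauchy-Schwarz for continuous functions, on a measurable set -/
lemma setIntegral_mul_le_sqrt (μ : Measure X) [IsFiniteMeasure μ] {s : Set X}
    (hs : MeasurableSet s) {a b : X → ℝ} (ha : Continuous a) (hb : Continuous b)
    (ha0 : ∀ x, 0 ≤ a x) (hb0 : ∀ x, 0 ≤ b x) :
    ∫ x in s, a x * b x ∂μ ≤
      Real.sqrt (∫ x in s, a x ^ 2 ∂μ) * Real.sqrt (∫ x in s, b x ^ 2 ∂μ) := by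
  set P := ∫ x in s, a x ^ 2 ∂μ with hP
  set Q := ∫ x in s, b x ^ 2 ∂μ with hQ
  set R := ∫ x in s, a x * b x ∂μ with hR
  have hP0 : 0 ≤ P := integral_nonneg fun x => by positivity
  have hQ0 : 0 ≤ Q := integral_nonneg fun x => by positivity
  have hR0 : 0 ≤ R := integral_nonneg fun x => mul_nonneg (ha0 x) (hb0 x)
  have hquad : ∀ t : ℝ, 0 ≤ P - 2 * t * R + t ^ 2 * Q := by
    intro t
    have h1 : 0 ≤ ∫ x in s, (a x - t * b x) ^ 2 ∂μ := integral_nonneg fun x => by positivity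
    have h2 : ∫ x in s, (a x - t * b x) ^ 2 ∂μ =
        ∫ x in s, (a x ^ 2 - 2 * t * (a x * b x) + t ^ 2 * b x ^ 2) ∂μ := by
      congr 1; funext x; ring
    rw [h2, integral_add, integral_sub, integral_const_mul, integral_const_mul] at h1
    · exact h1
    · exact (integrable_cont μ (by fun_prop)).integrableOn
    · exact (integrable_cont μ (by fun_prop)).integrableOn
    · exact (integrable_cont μ (by fun_prop)).integrableOn
    · exact (integrable_cont μ (by fun_prop)).integrableOn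
  have hRPQ : R ^ 2 ≤ P * Q := by
    rcases hQ0.eq_or_lt with h0 | h0
    · -- `Q = 0`
      have h1 : R = 0 := by
        by_contra hne
        have hRp : 0 < R := lt_of_le_of_ne hR0 (Ne.symm hne)
        have h2 := hquad ((P + 1) / (2 * R))
        rw [← h0] at h2
        have h3 : 2 * ((P + 1) / (2 * R)) * R = P + 1 := by field_simp
        rw [h3] at h2
        linarith
      rw [h1, ← h0]; simp
    · have h2 := hquad (R / Q)
      have h3 : P - 2 * (R / Q) * R + (R / Q) ^ 2 * Q = P - R ^ 2 / Q := by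
        field_simp; ring
      rw [h3] at h2
      have h4 : R ^ 2 / Q ≤ P := by linarith
      rwa [div_le_iff₀ h0] at h4
  rw [← Real.sqrt_mul hP0]
  exact Real.le_sqrt_of_sq_le hRPQ

/-- splitting of `∫ G T` at the level `L` of `G` -/
theorem split_bound {n : ℕ} (hn : 3 ≤ n) {A C1 C2 : ℝ} (hA : 0 ≤ A) (hC1 : 0 ≤ C1) (hC2 : 0 ≤ C2)
    (μ : Measure X) [IsFiniteMeasure μ] {G T : X → ℝ} {l : ℝ} (hG : Continuous G)
    (hT : Continuous T) (hG1 : ∀ x, 1 ≤ G x) (hT0 : ∀ x, 0 ≤ T x) (hTl : ∀ x, T x ≤ l)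
    (hl : 1 ≤ l)
    (h6 : ∫ x, G x ^ (((n : ℝ) - 2) / (n - 1)) * T x ^ 2 ∂μ ≤ A)
    (h10 : ∀ L : ℝ, 1 ≤ L → ∫ x in {x | G x ≤ L}, G x ^ ((n : ℝ) / (n - 1)) ∂μ ≤
      C1 * (1 + Real.log L) ^ ((n : ℝ) / (n - 1)))
    (h10c : ∀ L : ℝ, 1 ≤ L →
      ∫ x in {x | L < G x}, G x ∂μ ≤ C2 * L ^ (-(1 / (2 * ((n : ℝ) - 1))))) :
    ∫ x, G x * T x ∂μ ≤ Real.sqrt (A * C1) *
      (1 + 2 * (n - 1) * Real.log l) ^ ((n : ℝ) / (2 * (n - 1))) + C2 := by
  have hn' : (3 : ℝ) ≤ n := by exact_mod_cast hn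
  have hn1 : (0 : ℝ) < n - 1 := by linarith
  have hG0 : ∀ x, 0 < G x := fun x => lt_of_lt_of_le one_pos (hG1 x)
  have hl0 : 0 < l := by linarith
  set L : ℝ := l ^ (2 * ((n : ℝ) - 1)) with hLdef
  have hL1 : 1 ≤ L := Real.one_le_rpow hl (by linarith)
  have hL0 : 0 < L := by linarith
  have hmeas : MeasurableSet {x | G x ≤ L} := (isClosed_le hG continuous_const).measurableSet
  have hcompl : {x | G x ≤ L}ᶜ = {x | L < G x} := by
    ext x; simp
  have hcr : ∀ r : ℝ, Continuous fun x => G x ^ r := fun r =>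
    hG.rpow_const fun x => Or.inl (hG0 x).ne'
  rw [← integral_add_compl (f := fun x => G x * T x) hmeas
    (integrable_cont μ (hG.mul hT)), hcompl]
  refine add_le_add ?_ ?_
  · -- low part
    set a : X → ℝ := fun x => G x ^ (((n : ℝ) - 2) / (2 * (n - 1))) * T x with ha
    set b : X → ℝ := fun x => G x ^ ((n : ℝ) / (2 * (n - 1))) with hb
    have hac : Continuous a := (hcr _).mul hT
    have hbc : Continuous b := hcr _
    have ha0 : ∀ x, 0 ≤ a x := fun x => mul_nonneg (Real.rpow_nonneg (hG0 x).le _) (hT0 x)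
    have hb0 : ∀ x, 0 ≤ b x := fun x => Real.rpow_nonneg (hG0 x).le _
    have e1 : ∀ x, G x * T x = a x * b x := by
      intro x
      have h1 : G x = G x ^ (((n : ℝ) - 2) / (2 * (n - 1))) * G x ^ ((n : ℝ) / (2 * (n - 1))) := by
        rw [← Real.rpow_add (hG0 x)]
        have : ((n : ℝ) - 2) / (2 * (n - 1)) + (n : ℝ) / (2 * (n - 1)) = 1 := by
          field_simp; ring
        rw [this, Real.rpow_one]
      simp only [ha, hb]
      calc G x * T x = (G x ^ (((n : ℝ) - 2) / (2 * (n - 1))) *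
            G x ^ ((n : ℝ) / (2 * (n - 1)))) * T x := by rw [← h1]
        _ = _ := by ring
    have e2 : ∀ x, a x ^ 2 = G x ^ (((n : ℝ) - 2) / (n - 1)) * T x ^ 2 := by
      intro x
      simp only [ha]
      rw [mul_pow, ← Real.rpow_natCast, ← Real.rpow_mul (hG0 x).le]
      congr 2
      push_cast; field_simp
    have e3 : ∀ x, b x ^ 2 = G x ^ ((n : ℝ) / (n - 1)) := by
      intro x
      simp only [hb]
      rw [← Real.rpow_natCast, ← Real.rpow_mul (hG0 x).le]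
      congr 1
      push_cast; field_simp
    have h1 := setIntegral_mul_le_sqrt μ hmeas hac hbc ha0 hb0
    simp only [← e1, e2, e3] at h1
    refine h1.trans ?_
    have h2 : ∫ x in {x | G x ≤ L}, G x ^ (((n : ℝ) - 2) / (n - 1)) * T x ^ 2 ∂μ ≤ A := by
      refine (setIntegral_le_integral (integrable_cont μ ((hcr _).mul (hT.pow 2)))
        (Eventually.of_forall fun x => ?_)).trans h6
      exact mul_nonneg (Real.rpow_nonneg (hG0 x).le _) (sq_nonneg _)
    have h3 := h10 L hL1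
    have hlog : Real.log L = 2 * (n - 1) * Real.log l := by
      rw [hLdef, Real.log_rpow hl0]
    have hll : 0 ≤ Real.log l := Real.log_nonneg hl
    have hb1 : 0 ≤ 1 + 2 * ((n : ℝ) - 1) * Real.log l := by positivity
    rw [hlog] at h3
    have h4 : Real.sqrt (C1 * (1 + 2 * ((n : ℝ) - 1) * Real.log l) ^ ((n : ℝ) / (n - 1))) =
        Real.sqrt C1 * (1 + 2 * ((n : ℝ) - 1) * Real.log l) ^ ((n : ℝ) / (2 * (n - 1))) := by
      rw [Real.sqrt_mul hC1]
      congr 1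
      rw [Real.sqrt_eq_rpow, ← Real.rpow_mul hb1]
      congr 1
      field_simp
    calc Real.sqrt (∫ x in {x | G x ≤ L}, G x ^ (((n : ℝ) - 2) / (n - 1)) * T x ^ 2 ∂μ) *
          Real.sqrt (∫ x in {x | G x ≤ L}, G x ^ ((n : ℝ) / (n - 1)) ∂μ)
        ≤ Real.sqrt A * Real.sqrt (C1 * (1 + 2 * ((n : ℝ) - 1) * Real.log l) ^
            ((n : ℝ) / (n - 1))) :=
          mul_le_mul (Real.sqrt_le_sqrt h2) (Real.sqrt_le_sqrt h3) (Real.sqrt_nonneg _)
            (Real.sqrt_nonneg _)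
      _ = Real.sqrt (A * C1) * (1 + 2 * ((n : ℝ) - 1) * Real.log l) ^
            ((n : ℝ) / (2 * (n - 1))) := by
          rw [h4, Real.sqrt_mul hA]; ring
  · -- high part
    have hm2 : MeasurableSet {x | L < G x} := (isOpen_lt continuous_const hG).measurableSet
    have h1 : ∫ x in {x | L < G x}, G x * T x ∂μ ≤ ∫ x in {x | L < G x}, l * G x ∂μ := by
      refine setIntegral_mono_on (integrable_cont μ (hG.mul hT)).integrableOn
        (integrable_cont μ (continuous_const.mul hG)).integrableOn hm2 fun x _ => ?_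
      have := mul_le_mul_of_nonneg_left (hTl x) (hG0 x).le
      linarith
    refine h1.trans ?_
    rw [integral_const_mul]
    have h2 := mul_le_mul_of_nonneg_left (h10c L hL1) hl0.le
    refine h2.trans (le_of_eq ?_)
    have h3 : L ^ (-(1 / (2 * ((n : ℝ) - 1)))) = l⁻¹ := by
      rw [hLdef, ← Real.rpow_mul hl0.le]
      have : 2 * ((n : ℝ) - 1) * -(1 / (2 * ((n : ℝ) - 1))) = -1 := by field_simp
      rw [this, Real.rpow_neg_one]
    rw [h3]
    field_simp

/-- **Step 11**: the bound of `l = max T`. -/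
theorem core_bound {n : ℕ} (hn : 3 ≤ n) {c K C0 A C1 C2 Λ V1 : ℝ} (hc : 0 < c) (hK : 0 ≤ K)
    (hC0 : 0 ≤ C0) (hA : 0 ≤ A) (hC1 : 0 ≤ C1) (hC2 : 0 ≤ C2) (hΛ : 0 ≤ Λ) (hV1 : 0 ≤ V1) :
    ∃ M : ℝ, 0 < M ∧ ∀ (μ : Measure X) [IsFiniteMeasure μ] (G T f0 : X → ℝ) (l : ℝ),
      Continuous G → Continuous T → Continuous f0 → (∀ x, 1 ≤ G x) → (∀ x, 0 < T x) →
      (∀ x, T x ≤ l) → (∀ x, -Λ ≤ Real.log (T x)) → (∀ x, 0 ≤ f0 x) →
      (∀ x, f0 x ≠ 0 → l / 2 ≤ T x) → c ≤ ∫ x, f0 x ∂μ → ∫ x, f0 x ∂μ ≤ K → 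
      μ.real univ ≤ V1 → ∫ x, G x ∂μ ≤ V1 + K →
      (∫ x, (1 + f0 x) * Real.log (T x) ∂μ ≤ C0 * ∫ x, G x * T x ∂μ + ∫ x, G x ∂μ) →
      (∫ x, G x ^ (((n : ℝ) - 2) / (n - 1)) * T x ^ 2 ∂μ ≤ A) →
      (∀ L : ℝ, 1 ≤ L → ∫ x in {x | G x ≤ L}, G x ^ ((n : ℝ) / (n - 1)) ∂μ ≤
        C1 * (1 + Real.log L) ^ ((n : ℝ) / (n - 1))) →
      (∀ L : ℝ, 1 ≤ L →
        ∫ x in {x | L < G x}, G x ∂μ ≤ C2 * L ^ (-(1 / (2 * ((n : ℝ) - 1))))) →
      l ≤ M := by
  have hn' : (3 : ℝ) ≤ n := by exact_mod_cast hn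
  have hn1 : (0 : ℝ) < n - 1 := by linarith
  set a : ℝ := (Λ * V1 + C0 * C2 + (V1 + K)) / c + Real.log 2 with ha
  set b : ℝ := C0 * Real.sqrt (A * C1) / c with hb
  have ha0 : 0 ≤ a := by
    have : 0 ≤ Real.log 2 := Real.log_nonneg (by norm_num)
    positivity
  have hb0 : 0 ≤ b := by positivity
  have hp : (n : ℝ) / (2 * (n - 1)) ≤ 3 / 4 := by
    rw [div_le_iff₀ (by positivity)]; linarith
  obtain ⟨M, hM, hMb⟩ := bound_of_sublinear (c := 2 * ((n : ℝ) - 1)) (p := (n : ℝ) / (2 * (n - 1)))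
    ha0 hb0 (by positivity) (by positivity) hp
  refine ⟨Real.exp M + 1, by positivity, ?_⟩
  intro μ _ G T f0 l hG hT hf0 hG1 hT0 hTl hTΛ hf0n hf0T hcf hfK hμV hGV h7 h6 h10 h10c
  rcases le_or_gt l 1 with hl | hl
  · have := Real.exp_pos M; linarith
  have hl0 : 0 < l := by linarith
  have hll : 0 ≤ Real.log l := Real.log_nonneg hl.le
  have hsplit := split_bound hn hA hC1 hC2 μ hG hT hG1 (fun x => (hT0 x).le) hTl hl.le h6 h10 h10c
  have hlogT : Continuous fun x => Real.log (T x) := hT.log fun x => (hT0 x).ne'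
  -- the lower bound of the left hand side
  have h1 : ∀ x, Real.log (l / 2) * f0 x - Λ ≤ (1 + f0 x) * Real.log (T x) := by
    intro x
    have h2 := hTΛ x
    have h3 : Real.log (l / 2) * f0 x ≤ f0 x * Real.log (T x) := by
      by_cases h0 : f0 x = 0
      · rw [h0]; simp
      · rw [mul_comm]
        exact mul_le_mul_of_nonneg_left (Real.log_le_log (by positivity) (hf0T x h0)) (hf0n x)
    linarith
  have h2 : Real.log (l / 2) * (∫ x, f0 x ∂μ) - Λ * μ.real univ ≤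
      ∫ x, (1 + f0 x) * Real.log (T x) ∂μ := by
    have h3 := integral_mono (μ := μ) (g := fun x => (1 + f0 x) * Real.log (T x))
      (integrable_cont μ (by fun_prop))
      (integrable_cont μ ((continuous_const.add hf0).mul hlogT)) h1
    rw [integral_sub (integrable_cont μ (by fun_prop)) (integrable_cont μ continuous_const),
      integral_const_mul, integral_const, smul_eq_mul] at h3
    linarith
  have h3 : Real.log (l / 2) = Real.log l - Real.log 2 := Real.log_div hl0.ne' (by norm_num)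
  have h4 : Real.log l - Real.log 2 ≤
      (Λ * V1 + C0 * (Real.sqrt (A * C1) *
        (1 + 2 * (n - 1) * Real.log l) ^ ((n : ℝ) / (2 * (n - 1))) + C2) + (V1 + K)) / c := by
    have h5 : 0 ≤ Λ * V1 + C0 * (Real.sqrt (A * C1) *
        (1 + 2 * (n - 1) * Real.log l) ^ ((n : ℝ) / (2 * (n - 1))) + C2) + (V1 + K) := by
      positivity
    have h6' : Real.log (l / 2) * (∫ x, f0 x ∂μ) ≤ Λ * V1 + C0 * (Real.sqrt (A * C1) *
        (1 + 2 * (n - 1) * Real.log l) ^ ((n : ℝ) / (2 * (n - 1))) + C2) + (V1 + K) := by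
      have h8 := mul_le_mul_of_nonneg_left hsplit hC0
      have h9 := mul_le_mul_of_nonneg_left hμV hΛ
      linarith
    rw [← h3]
    rcases le_or_gt (Real.log (l / 2)) 0 with h8 | h8
    · exact h8.trans (div_nonneg h5 hc.le)
    · rw [le_div_iff₀ hc]
      exact (mul_le_mul_of_nonneg_left hcf h8.le).trans h6'
  have h5 : Real.log l ≤ a + b * (1 + 2 * ((n : ℝ) - 1) * Real.log l) ^
      ((n : ℝ) / (2 * (n - 1))) := by
    have h8 : (Λ * V1 + C0 * (Real.sqrt (A * C1) *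
        (1 + 2 * (n - 1) * Real.log l) ^ ((n : ℝ) / (2 * (n - 1))) + C2) + (V1 + K)) / c =
        (Λ * V1 + C0 * C2 + (V1 + K)) / c + b * (1 + 2 * ((n : ℝ) - 1) * Real.log l) ^
      ((n : ℝ) / (2 * (n - 1))) := by
      rw [hb]; field_simp; ring
    rw [h8] at h4
    rw [ha]
    linarith
  have h8 := hMb (Real.log l) hll h5
  have h9 := Real.exp_le_exp.2 h8
  rw [Real.exp_log hl0] at h9
  linarith

end Vale.Agent.P272.K.AMP.Main
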