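import Vale.Agent.P272.K.C2.Main
import Vale.Agent.P272.K.AMP.Green2

/-! AMP, step 7: the Chern–Lu inequality for `log tr_g w`, tested against `G`. -/

open scoped Manifold ContDiff ComplexOrder Topology Matrix
open MeasureTheory

set_option linter.all false

noncomputable section

namespace Vale.Agent.P272.K.AMP.S7

open Vale.Agent.P272.K Vale.Agent.P272.K.C2

variable {n : ℕ}

/-- Pointwise Chern–Lu inequality, `Ric(G) ≥ -G`. -/
theorem chernLu_ineq_ric [NeZero n] {G H : Cm n → Matrix (Fin n) (Fin n) ℂ} {z : Cm n}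
    (hG : MC 2 G z) (hH : MC 2 H z) (hGp : ∀ᶠ y in 𝓝 z, (G y).PosDef)
    (hHp : ∀ᶠ y in 𝓝 z, (H y).PosDef)
    (hK : ∀ᶠ y in 𝓝 z, ∀ i j k, dz k (fun y => G y i j) y = dz i (fun y => G y k j) y)
    {M : ℝ} (hM : 0 ≤ M)
    (hric : (-cHess (fun y => Real.log (G y).det.re) z + G z).PosSemidef)
    (hR : ∀ k l i j, ‖RM k l H z i j‖ ≤ M) (hHi : ((H z)⁻¹).trace.re ≤ M) :
    -1 - (n ^ 4 * M ^ 3) * tau G H z ≤
      ((G z)⁻¹ * cHess (fun y => Real.log (tau G H y)) z).trace.re := by
  obtain ⟨C, hC⟩ := chernLu hG hH hGp hHp hK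
  have hGz := hGp.self_of_nhds
  have hHz := hHp.self_of_nhds
  set P := (G z)⁻¹ with hP
  set t := tau G H z with ht
  have tpos : 0 < t := trace_re_pos hGz hHz
  have htdef : t = (P * H z).trace.re := rfl
  have hPp : P.PosSemidef := hGz.inv.posSemidef
  have hPle : ∀ i j, ‖P i j‖ ≤ M * t := fun i j =>
    (norm_entry_le_trace hPp i j).trans (trace_le_trace_mul hPp hHz hHi)
  have hMt : 0 ≤ M * t := mul_nonneg hM tpos.le
  have h1 : 0 ≤ (∑ l, ∑ k, P l k * (C k * (H z)⁻¹ * (C l)ᴴ * P).trace).re := by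
    have := sum_trace_nonneg hPp hPp hHz.inv.posSemidef C
    rw [Complex.le_def] at this
    simpa using this.1
  have h2 : ‖∑ l, ∑ k, P l k * (P * RM k l H z).trace‖ ≤ n ^ 4 * (M ^ 3 * t ^ 2) := by
    calc ‖∑ l, ∑ k, P l k * (P * RM k l H z).trace‖
        ≤ ∑ l : Fin n, ‖∑ k, P l k * (P * RM k l H z).trace‖ := norm_sum_le _ _
      _ ≤ ∑ l : Fin n, ∑ k : Fin n, (M * t) * (n ^ 2 * (M * t * M)) := by
          refine Finset.sum_le_sum fun l _ => (norm_sum_le _ _).trans
            (Finset.sum_le_sum fun k _ => ?_)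
          rw [norm_mul]
          exact mul_le_mul (hPle l k) (norm_trace_mul_le hMt hPle (hR k l)) (norm_nonneg _) hMt
      _ = n ^ 4 * (M ^ 3 * t ^ 2) := by
          simp only [Finset.sum_const, Finset.card_univ, Fintype.card_fin, nsmul_eq_mul]; ring
  set Rc := -cHess (fun y => Real.log (G y).det.re) z with hRc
  have h3 : (P * Rc * P * H z).trace = (P * (Rc + G z) * P * H z).trace - (t : ℂ) := by
    have hPG : P * G z = 1 :=
      Matrix.nonsing_inv_mul _ (isUnit_iff_ne_zero.2 (posDef_det_ne_zero hGz))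
    have e : P * (Rc + G z) * P * H z = P * Rc * P * H z + P * G z * P * H z := by noncomm_ring
    rw [e, hPG, Matrix.one_mul, Matrix.trace_add, htdef, trace_re_eq hGz hHz]
    ring
  have h4 : 0 ≤ (P * (Rc + G z) * P * H z).trace.re := by
    have hPS : (P * (Rc + G z) * P).PosSemidef := by
      have := hric.conjTranspose_mul_mul_same P
      rwa [hPp.isHermitian.eq] at this
    have := trace_mul_nonneg hPS hHz.posSemidef
    rw [Complex.le_def] at this
    simpa using this.1
  have h5 := congrArg Complex.re hC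
  rw [Complex.re_ofReal_mul, h3] at h5
  simp only [Complex.add_re, Complex.sub_re, Complex.neg_re, Complex.ofReal_re] at h5
  have h6 := Complex.re_le_norm (∑ l, ∑ k, P l k * (P * RM k l H z).trace)
  have h8 : t * (-1 - (n ^ 4 * M ^ 3) * t) ≤
      t * (P * cHess (fun y => Real.log (tau G H y)) z).trace.re := by
    rw [h5]
    have : t * (-1 - (n ^ 4 * M ^ 3) * t) = -t - n ^ 4 * (M ^ 3 * t ^ 2) := by ring
    rw [this]
    linarith
  exact le_of_mul_le_mul_left h8 tpos

variable {X : Type*} [TopologicalSpace X] [ChartedSpace (Cm n) X] [IsManifold 𝓘(ℂ, Cm n) ω X]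

/-- the trace is positive -/
lemma trX_pos [NeZero n] {g w : Chart n X → Cm n → Matrix (Fin n) (Fin n) ℂ} (hg : IsHermitian g)
    (hw : IsHermitian w) (x : X) : 0 < trX g w x :=
  C2.trace_re_pos (hg.posDef _ x (at_chartAt x)) (hw.posDef _ x (at_chartAt x))

lemma smoothFn_trX_w {g w : Chart n X → Cm n → Matrix (Fin n) (Fin n) ℂ} (hg : IsHermitian g)
    (hw : IsHermitian w) : SmoothFn (n := n) (trX g w) :=
  smoothFn_trX hg hw.isForm fun e x hx => hw.smooth e x hx

/-- Pointwise Chern–Lu inequality on `X`. -/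
theorem lapX_log_trX [CompactSpace X] [NeZero n] {w : Chart n X → Cm n → Matrix (Fin n) (Fin n) ℂ}
    (hw : IsKahler w) :
    ∃ A : ℝ, 0 ≤ A ∧ ∀ g : Chart n X → Cm n → Matrix (Fin n) (Fin n) ℂ, IsKahler g →
      (∀ e x, At e x →
        (-cHess (fun z => Real.log (g e z).det.re) (e x) + g e (e x)).PosSemidef) →
      ∀ x, -1 - A * trX g w x ≤ lapX g (fun y => Real.log (trX g w y)) x := by
  obtain ⟨A, hA, h⟩ := exists_uniform_bd hw (smoothFn_const (n := n) (X := X) 0)
  refine ⟨A, hA, fun g hg hric x => ?_⟩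
  obtain ⟨e, M, hM, hMA, hbd⟩ := h x
  have hx := hbd.at'
  have hgH := hg.toIsHermitian
  have hwH := hw.toIsHermitian
  have hlogsm : SmoothFn (n := n) (fun y => Real.log (trX g w y)) :=
    sm_log (smoothFn_trX_w hgH hwH) fun y => trX_pos hgH hwH y
  have hK : ∀ᶠ y in 𝓝 (e x), ∀ i j k,
      dz k (fun y => g e y i j) y = dz i (fun y => g e y k j) y := by
    filter_upwards [hx.nhds_target] with y hy
    have := hg.closed e (e.symm y) (At.of_target hx.1 hy)
    rwa [e.right_inv hy] at this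
  have key := chernLu_ineq_ric (mc_of_smooth hgH hx 2) (mc_of_smooth hwH hx 2)
    (eventually_posDef hgH.posDef hx) (eventually_posDef hwH.posDef hx) hK hM (hric e x hx)
    hbd.rm hbd.inv
  have e1 : trX g w x = tau (g e) (w e) (e x) := trX_eq hgH hwH.isForm hx
  have e2 : lapX g (fun y => Real.log (trX g w y)) x =
      ((g e (e x))⁻¹ * cHess (fun y => Real.log (tau (g e) (w e) y)) (e x)).trace.re := by
    rw [lapX_eq hgH hlogsm hx]
    unfold lapE hess
    rw [cHess_congr (g := fun y => Real.log (tau (g e) (w e) y))]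
    filter_upwards [hx.nhds_target] with y hy
    have h1 := trX_eq hgH hwH.isForm (At.of_target hx.1 hy)
    rw [e.right_inv hy] at h1
    rw [h1]
    rfl
  rw [e2, e1]
  refine le_trans ?_ key
  have htp : 0 < tau (g e) (w e) (e x) := C2.trace_re_pos (hgH.posDef e x hx) (hwH.posDef e x hx)
  have hle : (n : ℝ) ^ 4 * M ^ 3 ≤ A := by
    refine le_trans ?_ hMA
    have : 0 ≤ (n : ℝ) ^ 4 * M ^ 3 := by positivity
    nlinarith
  have := mul_le_mul_of_nonneg_right hle htp.le
  linarith

end Vale.Agent.P272.K.AMP.S7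

namespace Vale.Agent.P272.K.AMP

open Vale.Agent.P272.K S7

variable {n : ℕ} {X : Type*} [TopologicalSpace X] [ChartedSpace (Cm n) X]
  [IsManifold 𝓘(ℂ, Cm n) ω X] [T2Space X]

/-- **Step 7.** -/
theorem step7 [CompactSpace X] (hn : 1 ≤ n)
    {w : Chart n X → Cm n → Matrix (Fin n) (Fin n) ℂ} (hw : IsKahler w) :
    ∃ C0 : ℝ, 0 ≤ C0 ∧ ∀ g : Chart n X → Cm n → Matrix (Fin n) (Fin n) ℂ, IsKahler g →
      (∀ e x, At e x →
        (-cHess (fun z => Real.log (g e z).det.re) (e x) + g e (e x)).PosSemidef) →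
      ∀ G f0 : X → ℝ, SmoothFn (n := n) G → SmoothFn (n := n) f0 → (∀ x, 0 ≤ G x) →
      (∀ x, G x - lapX g G x = 1 + f0 x) →
      IX g (fun x => (1 + f0 x) * Real.log (trX g w x)) ≤
        C0 * IX g (fun x => G x * trX g w x) + IX g G := by
  haveI : NeZero n := ⟨by omega⟩
  obtain ⟨A, hA, h⟩ := lapX_log_trX hw
  refine ⟨1 + A, by positivity, fun g hg hric G f0 hG hf0 hG0 heq => ?_⟩
  have hgH := hg.toIsHermitian
  have hwH := hw.toIsHermitian
  have hTs : SmoothFn (n := n) (trX g w) := smoothFn_trX_w hgH hwH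
  have hTp : ∀ x, 0 < trX g w x := fun x => trX_pos hgH hwH x
  set L : X → ℝ := fun x => Real.log (trX g w x) with hL
  have hLs : SmoothFn (n := n) L := sm_log hTs hTp
  have hlL : SmoothFn (n := n) (lapX g L) := smoothFn_lapX hgH hLs
  have hlG : SmoothFn (n := n) (lapX g G) := smoothFn_lapX hgH hG
  have cG := INT.SmoothFn.continuous hG
  have cL := INT.SmoothFn.continuous hLs
  have cT := INT.SmoothFn.continuous hTs
  have clL := INT.SmoothFn.continuous hlL
  have clG := INT.SmoothFn.continuous hlG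
  have h1 : IX g (fun x => (1 + f0 x) * L x) = IX g (fun x => L x * G x - L x * lapX g G x) :=
    IX_congr fun x => by rw [← heq x]; ring
  have h2 : IX g (fun x => L x * lapX g G x) = IX g (fun x => G x * lapX g L x) :=
    IX_green hg hG hLs
  have c1 : Continuous fun x => L x * G x := cL.mul cG
  have c2 : Continuous fun x => L x * lapX g G x := cL.mul clG
  have c3 : Continuous fun x => G x * lapX g L x := cG.mul clL
  have c4 : Continuous fun x => G x * trX g w x := cG.mul cT
  have c5 : Continuous fun x => (1 + A) * (G x * trX g w x) := continuous_const.mul c4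
  rw [h1, IX_sub hgH c1 c2, h2, ← IX_sub hgH c1 c3, ← IX_const_mul, ← IX_add hgH c5 cG]
  refine IX_mono hgH (c1.sub c3) (c5.add cG) fun x => ?_
  have h3 := h g hg hric x
  have h4 : L x ≤ trX g w x := by
    have := Real.log_le_sub_one_of_pos (hTp x)
    simp only [hL]; linarith
  have h5 := mul_le_mul_of_nonneg_left h3 (hG0 x)
  have h6 := mul_le_mul_of_nonneg_left h4 (hG0 x)
  have h7 : G x * (-1 - A * trX g w x) = -G x - A * (G x * trX g w x) := by ring
  have h8 : lapX g (fun y => Real.log (trX g w y)) x = lapX g L x := rfl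
  rw [h8] at h5
  nlinarith

end Vale.Agent.P272.K.AMP
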