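import Vale.Agent.P272.K.AMP.Main.Exp
import Vale.Agent.P272.K.AMP.Main.Arith
import Vale.Agent.P272.K.AMP.Main.Step7
import Vale.Agent.P272.K.AMP.ABP.Step10
import Vale.Agent.P272.K.AMP.QH.Point
import Vale.Agent.P272.K.AMP.QH.HessInt
import Vale.Agent.P272.K.AMP.QH.Conv

/-!
# Assembly of the uniform estimate `TraceEst`
-/

open scoped Manifold ContDiff ComplexOrder Topology
open Complex Set Filter MeasureTheory

set_option linter.all false

noncomputable section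

namespace Vale.Agent.P272.K.AMP.Main

open INT (IsDensity intX part Part)

section
variable (n : ℕ) (X : Type) [TopologicalSpace X] [ChartedSpace (Cm n) X]
  [IsManifold 𝓘(ℂ, Cm n) ω X] [T2Space X] [CompactSpace X]

/-- Step 1: the pole function -/
def PoleBlock : Prop :=
  ∃ K : ℝ, 1 ≤ K ∧ ∀ g : Chart n X → Cm n → Matrix (Fin n) (Fin n) ℂ, IsKahler g → RicGe g →
    ∀ U : Set X, IsOpen U → ∀ x ∈ U, ∃ f0 G : X → ℝ, SmoothFn (n := n) f0 ∧
      SmoothFn (n := n) G ∧ (∀ y, 0 ≤ f0 y) ∧ (∀ y, y ∉ U → f0 y = 0) ∧ (∀ y, 1 ≤ G y) ∧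
      (∀ y, G y - lapX g G y = 1 + f0 y) ∧
      (∀ y, f0 y ≤ K * G y ^ ((n : ℝ) / ((n : ℝ) - 1))) ∧
      (∀ y ∈ tsupport f0, gradX g G G y ≤ K * G y ^ (2 + 1 / ((n : ℝ) - 1))) ∧
      K⁻¹ ≤ IX g f0 ∧ IX g f0 ≤ K

/-- Steps 5 and 6, for the metrics with `Ric(g) ≥ -g + s w` -/
def DDMainS (w : Chart n X → Cm n → Matrix (Fin n) (Fin n) ℂ) (s : ℝ) : Prop :=
  ∃ C : ℝ, 0 < C ∧ ∀ g : Chart n X → Cm n → Matrix (Fin n) (Fin n) ℂ, IsKahler g → RicGeS w s g →
    ∀ B : X → ℝ, SmoothFn (n := n) B → (∀ x, 0 < B x) → (∀ x, B x ≤ 1) →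
      IX g (fun x => ((B x)⁻¹) ^ (n - 2) * (trX g w x) ^ 2) ≤
        C * (IX g (fun x => ((B x)⁻¹) ^ (n - 1)) +
          intX (fun e z => ((B (e.symm z))⁻¹) ^ n * sqE g (Hf g B) e z * (g e z).det.re))

/-- Steps 5 and 6 -/
def DDMain (w : Chart n X → Cm n → Matrix (Fin n) (Fin n) ℂ) : Prop :=
  ∃ C : ℝ, 0 < C ∧ ∀ g : Chart n X → Cm n → Matrix (Fin n) (Fin n) ℂ, IsKahler g → RicGe g →
    ∀ B : X → ℝ, SmoothFn (n := n) B → (∀ x, 0 < B x) → (∀ x, B x ≤ 1) →
      IX g (fun x => ((B x)⁻¹) ^ (n - 2) * (trX g w x) ^ 2) ≤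
        C * (IX g (fun x => ((B x)⁻¹) ^ (n - 1)) +
          intX (fun e z => ((B (e.symm z))⁻¹) ^ n * sqE g (Hf g B) e z * (g e z).det.re))

end

variable {n : ℕ} {X : Type} [TopologicalSpace X] [ChartedSpace (Cm n) X]
  [IsManifold 𝓘(ℂ, Cm n) ω X] [T2Space X] [CompactSpace X]
  {w : Chart n X → Cm n → Matrix (Fin n) (Fin n) ℂ}

lemma DDMain.ddMainS (hw : IsHermitian w) {s : ℝ} (hs : 0 ≤ s) (h : DDMain n X w) :
    DDMainS n X w s := by
  obtain ⟨C, hC, h⟩ := h
  exact ⟨C, hC, fun g hg hr => h g hg (hr.ricGe hw hs)⟩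

/-- Step 4: the weighted Hessian bound -/
lemma hess_intX {g : Chart n X → Cm n → Matrix (Fin n) (Fin n) ℂ} (hn : 3 ≤ n) (hg : IsKahler g)
    (hR : RicGe g) {B f0 : X → ℝ} {K : ℝ} (P : Pole g B f0 K) :
    intX (fun e z => ((B (e.symm z))⁻¹) ^ n * sqE g (Hf g B) e z * (g e z).det.re) ≤
      Kh n K * intX (fun e z => (1 + f0 (e.symm z)) * (g e z).det.re) := by
  refine le_trans (le_of_eq ?_) (P.hess_bound hn hg hR)
  refine INT.intX_congr fun e x hx => ?_
  have h1 := Sf_eq hg.toIsHermitian P.smB hx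
  rw [hx.left_inv, ← h1]

lemma integral_eq_IX [MeasurableSpace X] [BorelSpace X]
    {g : Chart n X → Cm n → Matrix (Fin n) (Fin n) ℂ} (hg : IsHermitian g) {f : X → ℝ}
    (hf : Continuous f) : ∫ x, f x ∂(volX g) = IX g f := integral_volX hg hf

lemma expG_of_expHyp [MeasurableSpace X] [BorelSpace X]
    {g : Chart n X → Cm n → Matrix (Fin n) (Fin n) ℂ} (hg : IsHermitian g) {α CE : ℝ}
    (h : ExpHyp g α CE) : ABP.ExpG g α CE := by
  intro ψ hψ hpos hψ0 hmass
  have cψ := INT.SmoothFn.continuous hψ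
  rw [integral_eq_IX hg (by fun_prop)]
  rw [integral_eq_IX hg (by fun_prop), volX_real_univ hg] at hmass
  exact h ψ hψ hψ0 hpos hmass

/-- **The uniform estimate.** -/
theorem traceEst_of_blocks [Nonempty X] (hn : 3 ≤ n) (hw : IsKahler w) {s : ℝ} (hs : 0 ≤ s)
    (hP : PoleBlock n X) (hD : DDMainS n X w s) (hE : ExpInt n X) : TraceEst w s := by
  intro Λ v0 V1 hΛ hv0
  rcases lt_or_ge V1 v0 with hVV | hVV
  · exact ⟨1, one_pos, fun g hg => absurd (hg.vol_ge.trans hg.vol_le) (not_le.2 hVV)⟩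
  have hn2 : 2 ≤ n := by omega
  have hn1 : 1 ≤ n := by omega
  have hn' : (3 : ℝ) ≤ n := by exact_mod_cast hn
  have hV1 : 0 < V1 := lt_of_lt_of_le hv0 hVV
  letI : MeasurableSpace X := borel X
  haveI : BorelSpace X := ⟨rfl⟩
  have hwH := hw.toIsHermitian
  obtain ⟨K, hK1, hPK⟩ := hP
  set KH : ℝ := Kh n K with hKHdef
  obtain ⟨CD, hCD, hDD⟩ := hD
  obtain ⟨α, hα, CE, hCE, hexp⟩ := expHyp_of (s := s) (V1 := V1) hE hwH hv0 hΛ
  obtain ⟨C0, hC0, h7⟩ := step7 hn1 hw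
  have hK0 : 0 < K := by linarith
  set Q : ℝ := Kq n K with hQ
  set K3 : ℝ := max (max K (((n : ℝ) - 1) ^ 2 * Q)) V1 with hK3
  have hK3a : K ≤ K3 := (le_max_left _ _).trans (le_max_left _ _)
  have hK3b : ((n : ℝ) - 1) ^ 2 * Q ≤ K3 := (le_max_right _ _).trans (le_max_left _ _)
  have hK3c : V1 ≤ K3 := le_max_right _ _
  obtain ⟨C10, hC10, h10⟩ := ABP.abp10 (CE := CE) (X := X) hn2 (aubinYau n X)
    (hK1.trans hK3a) hα hv0
  set A : ℝ := CD * ((V1 + K) + |KH| * (V1 + K)) with hA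
  have hA0 : 0 ≤ A := by positivity
  obtain ⟨M, hM, hcore⟩ := core_bound (X := X) hn (c := K⁻¹) (K := K) (C0 := C0) (A := A)
    (C1 := C10) (C2 := C10) (Λ := Λ) (V1 := V1) (by positivity) hK0.le hC0 hA0 hC10.le hC10.le
    hΛ hV1.le
  refine ⟨M, hM, fun g hg => ?_⟩
  have hgK := hg.kahler
  have hgH := hgK.toIsHermitian
  have hric : RicGe g := hg.ricS.ricGe hwH hs
  haveI := isFiniteMeasure_volX hgH
  have hTs : SmoothFn (n := n) (trX g w) := S7.smoothFn_trX_w hgH hwH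
  have cT := INT.SmoothFn.continuous hTs
  have hTpos : ∀ x, 0 < trX g w x := fun x => (hg.log_trX_ge hn1 hwH hΛ x).1
  have hTlog : ∀ x, -Λ ≤ Real.log (trX g w x) := fun x => (hg.log_trX_ge hn1 hwH hΛ x).2
  -- the maximum point
  obtain ⟨x0, -, hx0⟩ := isCompact_univ.exists_isMaxOn ⟨Classical.arbitrary X, Set.mem_univ _⟩
    cT.continuousOn
  have hmax : ∀ y, trX g w y ≤ trX g w x0 := fun y => hx0 (Set.mem_univ y)
  set l : ℝ := trX g w x0 with hl
  have hl0 : 0 < l := hTpos x0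
  obtain ⟨f0, G, hf0s, hGs, hf0n, hf0U, hG1, heq, hf0G, hgradG, hm1, hm2⟩ :=
    hPK g hgK hric {y | l / 2 < trX g w y} (isOpen_lt continuous_const cT) x0 (by
      show l / 2 < trX g w x0
      rw [← hl]; linarith)
  have cf0 := INT.SmoothFn.continuous hf0s
  have cG := INT.SmoothFn.continuous hGs
  have hGpos : ∀ x, 0 < G x := fun x => lt_of_lt_of_le one_pos (hG1 x)
  have hpole : Pole g (Bof n G) f0 K := pole_Bof hn2 hGs hG1 hf0s hf0n heq hf0G hgradG
  have hQb : ∀ x, Qf g (Bof n G) x ≤ Q := fun x => hpole.q_bound hn hgK hric x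
  have hlapG : SmoothFn (n := n) (lapX g G) := smoothFn_lapX hgH hGs
  have clG := INT.SmoothFn.continuous hlapG
  -- the volume and the mass of `G`
  have hV : (volX g).real univ = intX fun e z => (g e z).det.re := volX_real_univ hgH
  have hVle : (volX g).real univ ≤ V1 := by rw [hV]; exact hg.vol_le
  have hVge : v0 ≤ (volX g).real univ := by rw [hV]; exact hg.vol_ge
  have hIX1f : IX g (fun x => 1 + f0 x) = (volX g).real univ + IX g f0 := by
    rw [IX_add hgH continuous_const cf0, IX_one, hV]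
  have hIXG : IX g G = (volX g).real univ + IX g f0 := by
    rw [← hIX1f]
    have h1 : IX g (fun x => G x - lapX g G x) = IX g G - IX g (lapX g G) := IX_sub hgH cG clG
    rw [IX_lapX hgK hGs, sub_zero] at h1
    rw [← h1]
    exact IX_congr heq
  have hIXG' : IX g G ≤ V1 + K := by rw [hIXG]; linarith
  -- the data for Step 10
  have hGdata : ABP.GData g G f0 K3 := by
    refine ⟨hGs, hf0s, hG1, hf0n, heq, fun x => ?_, fun x => ?_, ?_⟩
    · have h1 : 0 ≤ G x ^ ((n : ℝ) / (n - 1)) := Real.rpow_nonneg (hGpos x).le _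
      exact (hf0G x).trans (mul_le_mul_of_nonneg_right hK3a h1)
    · have h1 : 0 ≤ G x ^ (2 + 1 / ((n : ℝ) - 1)) := Real.rpow_nonneg (hGpos x).le _
      exact (gradX_G_le hn2 hGs hG1 (hQb x)).trans (mul_le_mul_of_nonneg_right hK3b h1)
    · rw [integral_eq_IX hgH cf0]; exact hm2.trans hK3a
  have h10' := h10 g hgK G f0 hGdata hVge (hVle.trans hK3c) (expG_of_expHyp hgH (hexp g hg))
  -- the inequality (6.1)
  have hBs : SmoothFn (n := n) (Bof n G) := smoothFn_Bof hGs hG1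
  have hB0 := Bof_pos (n := n) hG1
  have h6 : IX g (fun x => ((Bof n G x)⁻¹) ^ (n - 2) * (trX g w x) ^ 2) ≤ A := by
    refine (hDD g hgK hg.ricS (Bof n G) hBs hB0 (Bof_le_one hn2 hG1)).trans ?_
    rw [hA]
    refine mul_le_mul_of_nonneg_left (add_le_add ?_ ?_) hCD.le
    · have h1 : IX g (fun x => ((Bof n G x)⁻¹) ^ (n - 1)) = IX g G :=
        IX_congr fun x => (G_eq_Bof hn2 hG1 x).symm
      rw [h1]; exact hIXG'
    · refine (hess_intX hn hgK hric hpole).trans ?_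
      rw [← hKHdef]
      have h1 : intX (fun e z => (1 + f0 (e.symm z)) * (g e z).det.re) =
          IX g (fun x => 1 + f0 x) := rfl
      rw [h1, hIX1f]
      have h2 : 0 ≤ (volX g).real univ + IX g f0 := by
        have := IX_nonneg hgH hf0n
        linarith
      have h3 : (volX g).real univ + IX g f0 ≤ V1 + K := by linarith
      calc KH * ((volX g).real univ + IX g f0) ≤ |KH| * ((volX g).real univ + IX g f0) :=
            mul_le_mul_of_nonneg_right (le_abs_self _) h2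
        _ ≤ |KH| * (V1 + K) := mul_le_mul_of_nonneg_left h3 (abs_nonneg _)
  have hrho : ∀ x, G x ^ (((n : ℝ) - 2) / (n - 1)) = ((Bof n G x)⁻¹) ^ (n - 2) := by
    intro x
    have h1 : (Bof n G x)⁻¹ = G x ^ (1 / ((n : ℝ) - 1)) := (G_rpow_one_div hG1 x).symm
    rw [h1, ← Real.rpow_natCast, ← Real.rpow_mul (hGpos x).le]
    congr 1
    rw [Nat.cast_sub hn2]; push_cast; ring
  have hcr : ∀ r : ℝ, Continuous fun x => G x ^ r := fun r =>
    cG.rpow_const fun x => Or.inl (hGpos x).ne'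
  have h6' : ∫ x, G x ^ (((n : ℝ) - 2) / (n - 1)) * trX g w x ^ 2 ∂(volX g) ≤ A := by
    have h1 : Continuous fun x => G x ^ (((n : ℝ) - 2) / (n - 1)) * trX g w x ^ 2 :=
      (hcr _).mul (cT.pow 2)
    rw [integral_eq_IX hgH h1]
    refine le_trans (le_of_eq (IX_congr fun x => ?_)) h6
    rw [hrho]
  -- Step 7
  have h7' := h7 g hgK hric G f0 hGs hf0s (fun x => (hGpos x).le) heq
  have clT : Continuous fun x => Real.log (trX g w x) := cT.log fun x => (hTpos x).ne'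
  have h7'' : ∫ x, (1 + f0 x) * Real.log (trX g w x) ∂(volX g) ≤
      C0 * ∫ x, G x * trX g w x ∂(volX g) + ∫ x, G x ∂(volX g) := by
    have c1 : Continuous fun x => (1 + f0 x) * Real.log (trX g w x) :=
      (continuous_const.add cf0).mul clT
    have c2 : Continuous fun x => G x * trX g w x := cG.mul cT
    rw [integral_eq_IX hgH c1, integral_eq_IX hgH c2, integral_eq_IX hgH cG]
    exact h7'
  have hlM : l ≤ M := by
    refine hcore (volX g) G (trX g w) f0 l cG cT cf0 hG1 hTpos hmax hTlog hf0n (fun x hx => ?_)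
      ?_ ?_ hVle ?_ h7'' h6' (fun L hL => (h10' L hL).1) (fun L hL => (h10' L hL).2)
    · by_contra hcon
      exact hx (hf0U x fun h => hcon (le_of_lt h))
    · rw [integral_eq_IX hgH cf0]; exact hm1
    · rw [integral_eq_IX hgH cf0]; exact hm2
    · rw [integral_eq_IX hgH cG]; exact hIXG'
  intro e x hx
  have h1 : trX g w x = ((g e (e x))⁻¹ * w e (e x)).trace.re := trX_eq hgH hwH.isForm hx
  rw [← h1]
  exact (hmax x).trans hlM

/-- the frame: `K_X + s[w]` is Kähler, from the bigness of nef classes, Steps 5-6, the pole and the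
exponential integrability -/
theorem pos_of_blocks [Nonempty X] (hn : 3 ≤ n) (hw : IsKahler w) {s : ℝ} (hs : 0 ≤ s)
    (hBig : BigFrom w s) (hD : DDMainS n X w s) (hP : PoleBlock n X) (hE : ExpInt n X) :
    Pos w s :=
  pos_of_est (by omega) hw hs hBig (traceEst_of_blocks hn hw hs hP hD hE)

/-- the frame: ampleness -/
theorem ample_of_blocks [Nonempty X] (hn : 3 ≤ n) (hw : IsKahler w) (hBig : Big w)
    (hD : DDMain n X w) (hP : PoleBlock n X) (hE : ExpInt n X) :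
    ∃ φ : Chart n X → Cm n → ℝ, IsCanonicalMetric φ ∧
      ∀ e x, At e x → (cHess (φ e) (e x)).PosDef :=
  ample_of_big (by omega) hw hBig
    (traceEst_of_blocks hn hw le_rfl hP (hD.ddMainS hw.toIsHermitian le_rfl) hE)

end Vale.Agent.P272.K.AMP.Main
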