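import Vale.Agent.P272.K.AMP.Main.Final
import Vale.Agent.P272.K.AMP.NF.H291.Out
import Vale.Agent.P272.K.AMP.NF.H86.N1
import Vale.Agent.P272.K.AMP.NF.H327.Glob
import Vale.Agent.P272.K.AMP.NF.H527.N3
import Vale.Agent.P272.K.AMP.NF.H420.N4
import Vale.Agent.P272.K.AMP.NF.H977.Final
import Vale.Agent.P272.K.T4.AllNF

/-!
# Full ampleness for a Hermitian metric of nonpositive holomorphic sectional curvature without flat
lines, in particular on a hyperbolic Kähler manifold
-/

open scoped Manifold ContDiff ComplexOrder Topology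
open Complex Set Filter MeasureTheory

set_option linter.all false

noncomputable section

namespace Vale.Agent.P272.K.AMP.NF

open Main (Big BigFrom DDMain PoleBlock ample_of_blocks poleBlock_all expInt_all)

theorem big_noFlat {n : ℕ} {X : Type} [TopologicalSpace X] [T2Space X] [CompactSpace X]
    [Nonempty X] [ChartedSpace (Cm n) X] [IsManifold 𝓘(ℂ, Cm n) ω X] (hn : 1 ≤ n)
    {w h : Chart n X → Cm n → Matrix (Fin n) (Fin n) ℂ} (hw : IsKahler w) (hh : IsHermitian h)
    (hneg : NonposHSC h) (hno : ∀ f : ℂ → X, ¬ IsFlatLine h f) : Big w :=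
  fun a ha hnef φ hφ => T4.noFlatStatement n hn X w h hw hh hneg hno a ha hnef φ hφ

theorem ddMain_noFlat {n : ℕ} {X : Type} [TopologicalSpace X] [T2Space X] [CompactSpace X]
    [ChartedSpace (Cm n) X] [IsManifold 𝓘(ℂ, Cm n) ω X] (hn : 2 ≤ n)
    {w h : Chart n X → Cm n → Matrix (Fin n) (Fin n) ℂ} (hw : IsKahler w) (hh : IsHermitian h)
    (hneg : NonposHSC h) (hno : ∀ f : ℂ → X, ¬ IsFlatLine h f) : DDMain n X w :=
  ddMain hn hw hh hneg (n1 n X) (H420.n4 (H327.n2 n X)) (n3 n X h hh (T4.coer_noFlat hh hno))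

/-- **Full ampleness** without flat lines -/
theorem ample_noFlat : ∀ n, 1 ≤ n → AmpleNF n := by
  refine ampleNF_of_three fun n hn => ?_
  intro X _ _ _ _ _ _ w h hw hh hneg hno
  exact ample_of_blocks hn hw (big_noFlat (by omega) hw hh hneg hno)
    (ddMain_noFlat (by omega) hw hh hneg hno) (poleBlock_all (by omega) X) (expInt_all n X)

/-- **Full ampleness**: a compact connected Brody hyperbolic Kähler manifold with a Hermitian metric
of nonpositive holomorphic sectional curvature has a positively curved metric on its canonical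
bundle. -/
theorem ample_final : ∀ n, 1 ≤ n → AmpleHyp n := by
  intro n hn X _ _ _ _ _ _ hB w h hw hh hneg
  exact ample_noFlat n hn X w h hw hh hneg (T4.noFlat_of_brody hB)

end Vale.Agent.P272.K.AMP.NF

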