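import Vale.Agent.P272.K.AMP.Main.Assembly
import Vale.Agent.P272.K.AMP.DD.Main
import Vale.Agent.P272.K.AMP.H470.Glob
import Vale.Agent.P272.K.AMP.LEX.Local
import Vale.Agent.P272.K.AMP.Prod.FinalC

/-!
# Full ampleness for Hermitian metrics of negative holomorphic sectional curvature
-/

open scoped Manifold ContDiff ComplexOrder Topology
open Complex Set Filter MeasureTheory

set_option linter.all false

noncomputable section

namespace Vale.Agent.P272.K.AMP.Main

/-- Steps 5-6 for metrics of negative holomorphic sectional curvature -/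
theorem ddMain_of_negHSC {n : ℕ} {X : Type} [TopologicalSpace X] [ChartedSpace (Cm n) X]
    [IsManifold 𝓘(ℂ, Cm n) ω X] [T2Space X] [CompactSpace X] (hn : 2 ≤ n)
    {w h : Chart n X → Cm n → Matrix (Fin n) (Fin n) ℂ} (hw : IsKahler w) (hh : IsHermitian h)
    (hneg : NegHSC h) : DDMain n X w := by
  obtain ⟨C, hC, H⟩ := dd_main hn hw hh hneg
  exact ⟨C, hC, fun g hg hr => H g hg hr⟩

/-- Step 9 -/
theorem expInt_all (n : ℕ) (X : Type) [TopologicalSpace X] [T2Space X] [CompactSpace X]
    [ConnectedSpace X] [ChartedSpace (Cm n) X] [IsManifold 𝓘(ℂ, Cm n) ω X] : ExpInt n X :=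
  expInt (LEX.localExp n)

theorem ampleDimC_of_pole {n : ℕ} (hn : 3 ≤ n)
    (hP : ∀ (X : Type) [TopologicalSpace X] [ChartedSpace (Cm n) X]
      [IsManifold 𝓘(ℂ, Cm n) ω X] [T2Space X] [CompactSpace X], PoleBlock n X) :
    AmpleDimC n := by
  intro X _ _ _ _ _ _ w h hw hh hneg
  exact ample_of_blocks hn hw (big_of_negHSC (by omega) hw hh hneg)
    (ddMain_of_negHSC (by omega) hw hh hneg) (hP X) (expInt_all n X)

end Vale.Agent.P272.K.AMP.Main
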