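import Vale.Agent.P272.K.AMP.Main.Ample
import Vale.Agent.P272.K.AMP.Pole.Final

/-!
# Full ampleness: the final theorem
-/

open scoped Manifold ContDiff ComplexOrder Topology
open Complex Set Filter MeasureTheory

set_option linter.all false

noncomputable section

namespace Vale.Agent.P272.K.AMP.Main

/-- Step 1 -/
theorem poleBlock_all {n : ℕ} (hn : 2 ≤ n) (X : Type) [TopologicalSpace X] [T2Space X]
    [CompactSpace X] [ChartedSpace (Cm n) X] [IsManifold 𝓘(ℂ, Cm n) ω X] : PoleBlock n X := by
  obtain ⟨K, hK, H⟩ := Pole.exists_poleFn n hn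
  have hn1 : (0 : ℝ) < (n : ℝ) - 1 := by
    have : (2 : ℝ) ≤ (n : ℝ) := by exact_mod_cast hn
    linarith
  refine ⟨max K 1, le_max_right _ _, ?_⟩
  intro g hg hr U hU x hx
  obtain ⟨G, f0, P⟩ := H X g hg hr x U (hU.mem_nhds hx)
  have hKm : K ≤ max K 1 := le_max_left _ _
  have hG0 : ∀ y, 0 ≤ G y := fun y => zero_le_one.trans (P.one_le y)
  refine ⟨f0, G, P.smf, P.smG, P.f0_nonneg, ?_, P.one_le, P.eq, ?_, ?_, ?_, ?_⟩
  · intro y hy
    by_contra h
    exact hy (P.supp (subset_tsupport _ h))
  · intro y
    exact (P.f0_le y).trans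
      (mul_le_mul_of_nonneg_right hKm (Real.rpow_nonneg (hG0 y) _))
  · intro y hy
    exact (P.grad_le y hy).trans
      (mul_le_mul_of_nonneg_right hKm (Real.rpow_nonneg (hG0 y) _))
  · refine le_trans ?_ P.mass_ge
    rw [one_div]
    exact inv_anti₀ hK hKm
  · exact P.mass_le.trans hKm

/-- **Full ampleness** (all dimensions `≥ 1`, connected): a compact connected Kähler manifold with
a Hermitian metric of negative holomorphic sectional curvature has a positively curved metric on its
canonical bundle. -/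
theorem ample_final : ∀ n, 1 ≤ n → AmpleDimC n :=
  ample_of_threeC fun n hn => ampleDimC_of_pole hn fun X _ _ _ _ _ => poleBlock_all (by omega) X

end Vale.Agent.P272.K.AMP.Main

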