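import Vale.Agent.P272.K.Asm.Final
import Vale.Agent.P272.K.C2.Eig

/-!
# Step 0 of the ampleness proof: the threshold argument

`TraceEst w` (a uniform bound of `tr_g w` over all the Kähler metrics `g` controlled by `Ctrl`)
implies that the canonical bundle has a metric of positive curvature.
-/

open scoped Manifold ContDiff ComplexOrder Topology
open Complex Set Filter MeasureTheory

set_option linter.all false

noncomputable section

namespace Vale.Agent.P272.K.AMP.Main

open INT (IsDensity intX part Part PP)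

variable {n : ℕ}

section
variable {X : Type} [TopologicalSpace X] [ChartedSpace (Cm n) X]

/-- `Ric(g) ≥ -g` -/
def RicGe (g : Chart n X → Cm n → Matrix (Fin n) (Fin n) ℂ) : Prop :=
  ∀ e x, At e x → (-cHess (fun z => Real.log (g e z).det.re) (e x) + g e (e x)).PosSemidef

/-- `Ric(g) ≥ -g + s w` -/
def RicGeS (w : Chart n X → Cm n → Matrix (Fin n) (Fin n) ℂ) (s : ℝ)
    (g : Chart n X → Cm n → Matrix (Fin n) (Fin n) ℂ) : Prop :=
  ∀ e x, At e x → (-cHess (fun z => Real.log (g e z).det.re) (e x) + g e (e x) -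
    (s : ℂ) • w e (e x)).PosSemidef

/-- what is known, uniformly, about the twisted Kähler-Einstein metrics `g`:
`Ric(g) ≥ -g + s w`, `g ≤ Λ w + i∂∂̄u` and `u ≤ Λ` for `u = log (det g / det w)`, and the volume
is pinched -/
structure Ctrl (w g : Chart n X → Cm n → Matrix (Fin n) (Fin n) ℂ) (s Λ v0 V1 : ℝ)
    [IsManifold 𝓘(ℂ, Cm n) ω X] [T2Space X] [CompactSpace X] : Prop where
  kahler : IsKahler g
  ricS : RicGeS w s g
  upper : ∀ e x, At e x → ((Λ : ℂ) • w e (e x) +
    cHess (fun z => Real.log (g e z).det.re - Real.log (w e z).det.re) (e x) - g e (e x)).PosSemidef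
  pot : ∀ e x, At e x → Real.log (g e (e x)).det.re - Real.log (w e (e x)).det.re ≤ Λ
  vol_ge : v0 ≤ intX fun e z => (g e z).det.re
  vol_le : (intX fun e z => (g e z).det.re) ≤ V1

/-- the uniform estimate -/
def TraceEst (w : Chart n X → Cm n → Matrix (Fin n) (Fin n) ℂ) (s : ℝ)
    [IsManifold 𝓘(ℂ, Cm n) ω X] [T2Space X] [CompactSpace X] : Prop :=
  ∀ Λ v0 V1 : ℝ, 0 ≤ Λ → 0 < v0 → ∃ C : ℝ, 0 < C ∧
    ∀ g : Chart n X → Cm n → Matrix (Fin n) (Fin n) ℂ, Ctrl w g s Λ v0 V1 →
      ∀ e x, At e x → ((g e (e x))⁻¹ * w e (e x)).trace.re ≤ C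

end

section
variable {X : Type*} [TopologicalSpace X] [ChartedSpace (Cm n) X]
  {h b : Chart n X → Cm n → Matrix (Fin n) (Fin n) ℂ}

lemma isHermitian_smul_ofReal {M : Matrix (Fin n) (Fin n) ℂ} (hM : M.IsHermitian) (C : ℝ) :
    ((C : ℂ) • M).IsHermitian := by
  have h1 : (C : ℂ) • M = C • M := by ext i j; simp
  rw [h1]
  unfold Matrix.IsHermitian
  rw [Matrix.conjTranspose_smul, hM.eq]
  simp

/-- a smooth real `(1,1)`-form is bounded above by a multiple of a Hermitian metric -/
theorem exists_comparison' [CompactSpace X] [IsManifold 𝓘(ℂ, Cm n) ω X] (hh : IsHermitian h)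
    (hb : ∀ e x, At e x → ∀ i j, ContDiffAt ℝ ∞ (fun z => b e z i j) (e x))
    (hbf : IsForm b) (hbH : ∀ e x, At e x → (b e (e x)).IsHermitian) :
    ∃ C : ℝ, 0 < C ∧ ∀ e x, At e x → ((C : ℂ) • h e (e x) - b e (e x)).PosSemidef := by
  have key : ∃ C : ℝ, 0 < C ∧ ∀ x ∈ (univ : Set X), ∀ e, At e x →
      ((C : ℂ) • h e (e x) - b e (e x)).PosSemidef := by
    have hC : ∀ {C C' : ℝ} {M N : Matrix (Fin n) (Fin n) ℂ}, M.PosDef → C ≤ C' →
        ((C : ℂ) • M - N).PosSemidef → ((C' : ℂ) • M - N).PosSemidef := by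
      intro C C' M N hM hCC h
      have h1 : ((C' - C : ℝ) : ℂ) • M = (C' - C : ℝ) • M := by
        ext i j; simp
      have h2 : (((C' - C : ℝ) : ℂ) • M).PosSemidef := by
        rw [h1]; exact hM.posSemidef.smul (sub_nonneg.2 hCC)
      have h3 : (C' : ℂ) • M - N = ((C : ℂ) • M - N) + ((C' - C : ℝ) : ℂ) • M := by
        push_cast
        rw [sub_smul]; abel
      rw [h3]
      exact h.add h2
    refine isCompact_univ.induction_on (p := fun s => ∃ C : ℝ, 0 < C ∧ ∀ x ∈ s, ∀ e, At e x →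
      ((C : ℂ) • h e (e x) - b e (e x)).PosSemidef) ?_ ?_ ?_ ?_
    · exact ⟨1, one_pos, fun x hx => hx.elim⟩
    · rintro s t hst ⟨C, hC0, hCt⟩
      exact ⟨C, hC0, fun x hx => hCt x (hst hx)⟩
    · rintro s t ⟨C, hC0, hCs⟩ ⟨C', hC0', hCt⟩
      refine ⟨max C C', lt_max_of_lt_left hC0, ?_⟩
      rintro x (hx | hx) e hex
      · exact hC (hh.posDef e x hex) (le_max_left _ _) (hCs x hx e hex)
      · exact hC (hh.posDef e x hex) (le_max_right _ _) (hCt x hx e hex)
    · intro x _
      set c := chartAt (Cm n) x with hc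
      have hAt : At c x := ⟨chart_mem_atlas _ x, mem_chart_source _ x⟩
      obtain ⟨r, hr, hball⟩ := Metric.nhds_basis_closedBall.mem_iff.1
        (c.open_target.mem_nhds hAt.mem_target)
      obtain ⟨C, hC0, hCK⟩ := exists_quad_lower (isCompact_closedBall (c x) r)
        (fun z => h c z) (fun z => b c z)
        (fun i j => (hh.continuousOn_entry hAt.1 i j).mono hball)
        (fun i j z hz => by
          have hz' := hball hz
          have := (hb c (c.symm z) (At.of_target hAt.1 hz') i j).continuousAt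
          rw [c.right_inv hz'] at this
          exact this.continuousWithinAt)
        (fun z hz => hh.posDef_target hAt.1 (hball hz))
      refine ⟨c.source ∩ c ⁻¹' Metric.closedBall (c x) r, ?_, C, hC0, ?_⟩
      · refine mem_nhdsWithin_of_mem_nhds (inter_mem (c.open_source.mem_nhds hAt.2) ?_)
        exact (c.continuousAt hAt.2).preimage_mem_nhds (Metric.closedBall_mem_nhds _ hr)
      · rintro y ⟨hy1, hy2⟩ e hey
        have hcy : At c y := ⟨hAt.1, hy1⟩
        have h1 : ((C : ℂ) • h c (c y) - b c (c y)).PosSemidef := by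
          refine posSemidef_of_quad ?_ fun ξ => ?_
          · exact (isHermitian_smul_ofReal (hh.posDef c y hcy).isHermitian C).sub (hbH c y hcy)
          · have h2 := hCK (c y) hy2 ξ
            have h3 : quad ((C : ℂ) • h c (c y) - b c (c y)) ξ =
                (C : ℂ) * quad (h c (c y)) ξ - quad (b c (c y)) ξ := by
              unfold quad
              rw [Finset.mul_sum, ← Finset.sum_sub_distrib]
              refine Finset.sum_congr rfl fun i _ => ?_
              rw [Finset.mul_sum, ← Finset.sum_sub_distrib]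
              refine Finset.sum_congr rfl fun j _ => ?_
              simp only [Matrix.sub_apply, Matrix.smul_apply, smul_eq_mul]
              ring
            rw [h3, Complex.sub_re, Complex.re_ofReal_mul]
            linarith
        have h2 : ((C : ℂ) • h e (e y) - b e (e y)) =
            (jacM e c y).transpose * ((C : ℂ) • h c (c y) - b c (c y)) *
              (jacM e c y).map (starRingEnd ℂ) := by
          rw [hh.change e c y hey hcy, hbf e c y hey hcy]
          rw [Matrix.mul_sub, Matrix.sub_mul, Matrix.mul_smul, Matrix.smul_mul]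
        rw [h2]
        exact posSemidef_form h1 _
  obtain ⟨C, hC0, h⟩ := key
  exact ⟨C, hC0, fun e x hx => h x (mem_univ x) e hx⟩

end

section
variable {X : Type} [TopologicalSpace X] [ChartedSpace (Cm n) X] [IsManifold 𝓘(ℂ, Cm n) ω X]
  {w : Chart n X → Cm n → Matrix (Fin n) (Fin n) ℂ}

lemma isCanonical_logdet (hw : IsHermitian w) :
    IsCanonicalMetric fun e z => Real.log (w e z).det.re where
  smooth e x hx := (contDiffAt_re (contDiffAt_det (hw.smooth e x hx))).log (hw.det_re_pos hx).ne'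
  change e e' x hx hx' := log_det_change hw hx hx'

/-- the twisted Kähler-Einstein metric, with the exact equation `log det g = φ` -/
theorem exists_KE (hAY : AubinYau n X) (hw : IsKahler w) {t : ℝ} {φ0 : Chart n X → Cm n → ℝ}
    (hφ0 : IsCanonicalMetric φ0)
    (hpos : ∀ e x, At e x → (cHess (φ0 e) (e x) + (t : ℂ) • w e (e x)).PosDef) :
    ∃ φ : Chart n X → Cm n → ℝ, IsCanonicalMetric φ ∧
      (∀ e x, At e x → (cHess (φ e) (e x) + (t : ℂ) • w e (e x)).PosDef) ∧
      ∀ e x, At e x → Real.log (cHess (φ e) (e x) + (t : ℂ) • w e (e x)).det.re = φ e (e x) := by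
  set χ : Chart n X → Cm n → Matrix (Fin n) (Fin n) ℂ :=
    fun e z => cHess (φ0 e) z + (t : ℂ) • w e z with hχdef
  have hχ : IsKahler χ := isKahler_twist hφ0 hw t hpos
  obtain ⟨u, hu, hupos, heq⟩ := hAY χ hχ (ricPot χ φ0) (smoothFn_ricPot hχ.toIsHermitian hφ0)
  have hsm : ∀ e x, At e x → ContDiffAt ℝ ∞ (fun z => φ0 e z + u (e.symm z)) (e x) :=
    fun e x hx => (hφ0.smooth e x hx).add (hu e x hx)
  have hcan : IsCanonicalMetric fun e z => φ0 e z + u (e.symm z) := by
    refine ⟨hsm, fun e e' x hx hx' => ?_⟩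
    simp only [hx.left_inv, hx'.left_inv]
    rw [hφ0.change e e' x hx hx']; ring
  have htwo : ∀ {f : Cm n → ℝ} {z}, ContDiffAt ℝ ∞ f z → ContDiffAt ℝ 2 f z :=
    fun h => h.of_le (by exact WithTop.coe_le_coe.2 le_top)
  have hcH : ∀ e x, At e x → cHess (fun z => φ0 e z + u (e.symm z)) (e x) +
      (t : ℂ) • w e (e x) = addH χ u e (e x) := by
    intro e x hx
    rw [cHess_add (htwo (hφ0.smooth e x hx)) (htwo (hu e x hx))]
    simp only [addH, hχdef]
    abel
  refine ⟨fun e z => φ0 e z + u (e.symm z), hcan, fun e x hx => ?_, fun e x hx => ?_⟩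
  · rw [hcH e x hx]; exact hupos e x hx
  · have h3 := heq e x hx
    have h4 := ricPot_eq hχ.toIsHermitian hφ0 hx
    rw [h4] at h3
    have h5 : χ e (e x) = cHess (φ0 e) (e x) + (t : ℂ) • w e (e x) := rfl
    show Real.log (cHess (fun z => φ0 e z + u (e.symm z)) (e x) + (t : ℂ) • w e (e x)).det.re =
      φ0 e (e x) + u (e.symm (e x))
    rw [hcH e x hx, hx.left_inv]
    linarith

omit [IsManifold 𝓘(ℂ, Cm n) ω X] in
lemma RicGeS.ricGe {g : Chart n X → Cm n → Matrix (Fin n) (Fin n) ℂ} (hw : IsHermitian w) {s : ℝ}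
    (hs : 0 ≤ s) (h : RicGeS w s g) : RicGe g := by
  intro e x hx
  have h1 := (h e x hx).add (posSemidef_ofReal_smul (hw.posDef e x hx).posSemidef hs)
  rwa [sub_add_cancel] at h1

omit [IsManifold 𝓘(ℂ, Cm n) ω X] in
lemma RicGe.ricGeS {g : Chart n X → Cm n → Matrix (Fin n) (Fin n) ℂ} (h : RicGe g) :
    RicGeS w 0 g := by
  intro e x hx
  have h1 := h e x hx
  simpa using h1

/-- the uniform control of the twisted Kähler-Einstein metrics -/
theorem ctrl_of_KE [T2Space X] [CompactSpace X] (hn : 1 ≤ n) (hw : IsKahler w) {C t a s : ℝ}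
    (hC0 : 0 < C)
    (hC : ∀ e x, At e x →
      ((C : ℂ) • w e (e x) - cHess (fun z => Real.log (w e z).det.re) (e x)).PosSemidef)
    (ht0 : 0 ≤ t) (hst : s ≤ t) (hta : t ≤ a) {φ : Chart n X → Cm n → ℝ} (hφ : IsCanonicalMetric φ)
    (hpos : ∀ e x, At e x → (cHess (φ e) (e x) + (t : ℂ) • w e (e x)).PosDef)
    (hKE : ∀ e x, At e x →
      Real.log (cHess (φ e) (e x) + (t : ℂ) • w e (e x)).det.re = φ e (e x))
    {v0 V1 : ℝ} (hv0 : v0 ≤ intX fun e z => (cHess (φ e) z + (t : ℂ) • w e z).det.re)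
    (hV1 : (intX fun e z => (cHess (φ e) z + (t : ℂ) • w e z).det.re) ≤ V1) :
    Ctrl w (fun e z => cHess (φ e) z + (t : ℂ) • w e z) s (n * (C + a)) v0 V1 := by
  have htwo : ∀ {f : Cm n → ℝ} {z}, ContDiffAt ℝ ∞ f z → ContDiffAt ℝ 2 f z :=
    fun h => h.of_le (by exact WithTop.coe_le_coe.2 le_top)
  have hn' : (1 : ℝ) ≤ n := by exact_mod_cast hn
  have ha0 : 0 ≤ a := ht0.trans hta
  have hg : IsKahler fun e z => cHess (φ e) z + (t : ℂ) • w e z := isKahler_twist hφ hw t hpos
  -- `log det g = φ` near each point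
  have hev : ∀ e x, At e x → (fun z => Real.log (cHess (φ e) z + (t : ℂ) • w e z).det.re)
      =ᶠ[𝓝 (e x)] φ e := by
    intro e x hx
    filter_upwards [hx.nhds_target] with z hz
    have := hKE e _ (At.of_target hx.1 hz)
    rwa [e.right_inv hz] at this
  have hev2 : ∀ e x, At e x → (fun z => Real.log (cHess (φ e) z + (t : ℂ) • w e z).det.re -
      Real.log (w e z).det.re) =ᶠ[𝓝 (e x)] fun z => φ e z - Real.log (w e z).det.re := by
    intro e x hx
    filter_upwards [hev e x hx] with z hz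
    rw [hz]
  have hwc := isCanonical_logdet hw.toIsHermitian
  have hsub : ∀ e x, At e x → cHess (fun z => Real.log (cHess (φ e) z + (t : ℂ) • w e z).det.re -
      Real.log (w e z).det.re) (e x) =
      cHess (φ e) (e x) - cHess (fun z => Real.log (w e z).det.re) (e x) := by
    intro e x hx
    rw [cHess_congr (hev2 e x hx), cHess_sub (htwo (hφ.smooth e x hx)) (htwo (hwc.smooth e x hx))]
  -- the comparison of `g` and `w` at a maximum point
  have hup : ∀ (Λ : ℝ), C + a ≤ Λ → ∀ e x, At e x →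
      ((Λ : ℂ) • w e (e x) - cHess (fun z => Real.log (w e z).det.re) (e x) -
        (t : ℂ) • w e (e x)).PosSemidef := by
    intro Λ hΛ e x hx
    have h1 : (Λ : ℂ) • w e (e x) - cHess (fun z => Real.log (w e z).det.re) (e x) -
        (t : ℂ) • w e (e x) =
        ((C : ℂ) • w e (e x) - cHess (fun z => Real.log (w e z).det.re) (e x)) +
          ((Λ - C - t : ℝ) : ℂ) • w e (e x) := by
      push_cast
      rw [sub_smul, sub_smul]; abel
    rw [h1]
    exact (hC e x hx).add (posSemidef_ofReal_smul (hw.posDef e x hx).posSemidef (by linarith))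
  have hCa : C + a ≤ n * (C + a) := by nlinarith
  refine ⟨hg, fun e x hx => ?_, fun e x hx => ?_, ?_, hv0, hV1⟩
  · rw [cHess_congr (hev e x hx)]
    have h5 : -cHess (φ e) (e x) + (cHess (φ e) (e x) + (t : ℂ) • w e (e x)) -
        (s : ℂ) • w e (e x) = ((t - s : ℝ) : ℂ) • w e (e x) := by
      push_cast; rw [sub_smul]; abel
    rw [h5]
    exact posSemidef_ofReal_smul (hw.posDef e x hx).posSemidef (by linarith)
  · rw [hsub e x hx]
    have h5 : ((n * (C + a) : ℝ) : ℂ) • w e (e x) +
        (cHess (φ e) (e x) - cHess (fun z => Real.log (w e z).det.re) (e x)) -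
        (cHess (φ e) (e x) + (t : ℂ) • w e (e x)) =
        ((n * (C + a) : ℝ) : ℂ) • w e (e x) - cHess (fun z => Real.log (w e z).det.re) (e x) -
        (t : ℂ) • w e (e x) := by abel
    rw [h5]
    exact hup _ hCa e x hx
  · -- maximum principle
    set u : X → ℝ := fun x => φ (chartAt (Cm n) x) (chartAt (Cm n) x x) -
      Real.log (w (chartAt (Cm n) x) (chartAt (Cm n) x x)).det.re with hu
    have hue : ∀ e x, At e x → u x = φ e (e x) - Real.log (w e (e x)).det.re := fun e x hx =>
      canonical_diff (ψ := fun e z => Real.log (w e z).det.re) hφ.change hwc.change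
        ⟨chart_mem_atlas _ x, mem_chart_source _ x⟩ hx
    have huev : ∀ (e : Chart n X) x, At e x →
        (fun y => u (e.symm y)) =ᶠ[𝓝 (e x)] fun y => φ e y - Real.log (w e y).det.re := by
      intro e x hx
      filter_upwards [hx.nhds_target] with y hy
      rw [hue e _ (At.of_target hx.1 hy), e.right_inv hy]
    have husm : SmoothFn (n := n) u := fun e x hx =>
      ((hφ.smooth e x hx).sub (hwc.smooth e x hx)).congr_of_eventuallyEq (huev e x hx)
    intro e x hx
    have hux : Real.log (cHess (φ e) (e x) + (t : ℂ) • w e (e x)).det.re -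
        Real.log (w e (e x)).det.re = u x := by rw [hKE e x hx, hue e x hx]
    rw [hux]
    obtain ⟨x0, -, hx0⟩ := isCompact_univ.exists_isMaxOn ⟨x, Set.mem_univ x⟩
      (INT.SmoothFn.continuous husm).continuousOn
    have hmax : ∀ y, u y ≤ u x0 := fun y => hx0 (Set.mem_univ y)
    refine (hmax x).trans ?_
    set c := chartAt (Cm n) x0 with hc
    have hAt : At c x0 := ⟨chart_mem_atlas _ x0, mem_chart_source _ x0⟩
    have hloc : IsLocalMax (fun z => u (c.symm z)) (c x0) := by
      refine Eventually.of_forall fun z => ?_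
      simp only [c.left_inv hAt.2]
      exact hmax _
    have h1 := N.neg_cHess_posSemidef (htwo (husm c x0 hAt)) hloc
    rw [cHess_congr (huev c x0 hAt), cHess_sub (htwo (hφ.smooth c x0 hAt))
      (htwo (hwc.smooth c x0 hAt))] at h1
    have h2 : (((C + a : ℝ) : ℂ) • w c (c x0) -
        (cHess (φ c) (c x0) + (t : ℂ) • w c (c x0))).PosSemidef := by
      have h3 : ((C + a : ℝ) : ℂ) • w c (c x0) -
          (cHess (φ c) (c x0) + (t : ℂ) • w c (c x0)) =
          (((C + a : ℝ) : ℂ) • w c (c x0) - cHess (fun z => Real.log (w c z).det.re) (c x0) -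
            (t : ℂ) • w c (c x0)) +
          -(cHess (φ c) (c x0) - cHess (fun z => Real.log (w c z).det.re) (c x0)) := by abel
      rw [h3]
      exact (hup _ le_rfl c x0 hAt).add h1
    have h4 := N.det_re_le (hpos c x0 hAt) h2
    have h5 : 0 < (cHess (φ c) (c x0) + (t : ℂ) • w c (c x0)).det.re :=
      (Complex.pos_iff.1 (hpos c x0 hAt).det_pos).1
    have h6 : (((C + a : ℝ) : ℂ) • w c (c x0)).det.re = (C + a) ^ n * (w c (c x0)).det.re := by
      rw [Matrix.det_smul, Fintype.card_fin, ← Complex.ofReal_pow, Complex.re_ofReal_mul]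
    have h7 := hw.toIsHermitian.det_re_pos hAt
    have hCap : 0 < C + a := by linarith
    rw [hue c x0 hAt, ← hKE c x0 hAt]
    have h8 := Real.log_le_log h5 h4
    rw [h6, Real.log_mul (pow_pos hCap n).ne' h7.ne', Real.log_pow] at h8
    have h9 : Real.log (C + a) ≤ C + a := (Real.log_le_sub_one_of_pos hCap).trans (by linarith)
    have h10 : (n : ℝ) * Real.log (C + a) ≤ n * (C + a) :=
      mul_le_mul_of_nonneg_left h9 (by linarith)
    linarith

end

section
variable {X : Type} [TopologicalSpace X] [ChartedSpace (Cm n) X] [IsManifold 𝓘(ℂ, Cm n) ω X]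
  [T2Space X] [CompactSpace X] [Nonempty X]
  {w h : Chart n X → Cm n → Matrix (Fin n) (Fin n) ℂ}

/-- positivity of `K_X + t [w]` -/
def Pos (w : Chart n X → Cm n → Matrix (Fin n) (Fin n) ℂ) (t : ℝ) : Prop :=
  ∃ φ : Chart n X → Cm n → ℝ, IsCanonicalMetric φ ∧
    ∀ e x, At e x → (cHess (φ e) (e x) + (t : ℂ) • w e (e x)).PosDef

omit [IsManifold 𝓘(ℂ, Cm n) ω X] [T2Space X] [CompactSpace X] [Nonempty X] in
lemma Pos.mono (hw : IsHermitian w) {s t : ℝ} (h : Pos w s) (hst : s ≤ t) : Pos w t := by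
  obtain ⟨φ, hφ, hpos⟩ := h
  refine ⟨φ, hφ, fun e x hx => ?_⟩
  have h1 : cHess (φ e) (e x) + (t : ℂ) • w e (e x) =
      (cHess (φ e) (e x) + (s : ℂ) • w e (e x)) + ((t - s : ℝ) : ℂ) • w e (e x) := by
    push_cast; rw [sub_smul]; abel
  rw [h1]
  exact (hpos e x hx).add_posSemidef
    (posSemidef_ofReal_smul (hw.posDef e x hx).posSemidef (by linarith))

omit [T2Space X] [Nonempty X] in
lemma exists_pos (hw : IsKahler w) : ∃ t : ℝ, Pos w t := by
  have hc := isCanonical_logdet hw.toIsHermitian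
  have hcl := INT.isClosedForm_canonical hc
  obtain ⟨C, hC0, hC⟩ := exists_comparison' (b := fun e z =>
      -cHess (fun z => Real.log (w e z).det.re) z) hw.toIsHermitian
    (fun e x hx i j => (hcl.smooth e x hx i j).neg)
    (by
      intro e e' x hx hx'
      have := hcl.form e e' x hx hx'
      simp only [this, Matrix.mul_neg, Matrix.neg_mul])
    (fun e x hx => (cHess_isHermitian
      ((hc.smooth e x hx).of_le (by exact WithTop.coe_le_coe.2 le_top))).neg)
  refine ⟨C + 1, _, hc, fun e x hx => ?_⟩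
  have h1 : cHess (fun z => Real.log (w e z).det.re) (e x) + ((C + 1 : ℝ) : ℂ) • w e (e x) =
      w e (e x) + ((C : ℂ) • w e (e x) - -cHess (fun z => Real.log (w e z).det.re) (e x)) := by
    push_cast; rw [add_smul, one_smul]; abel
  rw [h1]
  exact (hw.posDef e x hx).add_posSemidef (hC e x hx)

/-- nef classes `K_X + a[w]`, `a ≥ s`, have positive top self-intersection -/
def BigFrom (w : Chart n X → Cm n → Matrix (Fin n) (Fin n) ℂ) (s : ℝ) : Prop :=
  ∀ a : ℝ, s ≤ a → NefCanonical w a → ∀ φ : Chart n X → Cm n → ℝ, IsCanonicalMetric φ →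
    ∃ I : ℝ, 0 < I ∧ IsIntegral (fun e z => (cHess (φ e) z + (a : ℂ) • w e z).det.re) I

/-- **Step 0**: bigness of the nef classes and the uniform estimate imply that `K_X + s[w]` is
Kähler. -/
theorem pos_of_est (hn : 1 ≤ n) (hw : IsKahler w) {s : ℝ} (hs0 : 0 ≤ s) (hBig : BigFrom w s)
    (hT : TraceEst w s) : Pos w s := by
  by_contra h0
  have hAY := aubinYau n X
  set S : Set ℝ := {t | Pos w t} with hS
  have hSne : S.Nonempty := exists_pos hw
  have hSlb : ∀ t ∈ S, s ≤ t := by
    intro t ht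
    by_contra h1
    exact h0 (Pos.mono hw.toIsHermitian ht (not_le.1 h1).le)
  have hSbb : BddBelow S := ⟨s, hSlb⟩
  set a := sInf S with ha
  have hsa : s ≤ a := le_csInf hSne hSlb
  have ha0 : 0 ≤ a := hs0.trans hsa
  have haS : ∀ t, a < t → Pos w t := by
    intro t ht
    obtain ⟨r, hs, hst⟩ := exists_lt_of_csInf_lt hSne ht
    exact Pos.mono hw.toIsHermitian hs hst.le
  -- the volume
  have hc := isCanonical_logdet hw.toIsHermitian
  set φ0 : Chart n X → Cm n → ℝ := fun e z => Real.log (w e z).det.re with hφ0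
  have hwc := INT.IsKahler.isClosedForm hw
  have hnef : NefCanonical w a := by
    intro ε hε
    obtain ⟨φ, hφ, hpos⟩ := haS (a + ε) (by linarith)
    exact ⟨φ, hφ, fun e x hx => (hpos e x hx).posSemidef⟩
  have hPa : 0 < PP φ0 w a := by
    obtain ⟨I, hI, hII⟩ := hBig a hsa hnef φ0 hc
    have := INT.intX_eq_of_isIntegral hII
    rw [PP, this]
    exact hI
  have hPpos : ∀ t ∈ Icc a (a + 1), 0 < PP φ0 w t := by
    intro t ht
    rcases eq_or_lt_of_le ht.1 with h1 | h1
    · rw [← h1]; exact hPa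
    · obtain ⟨φ, hφ, hpos⟩ := haS t h1
      rw [INT.PP_eq hc hφ hwc]
      exact INT.intX_pos (((INT.isClosedForm_canonical hφ).add (hwc.smul (t : ℂ))).isDensity)
        fun e x hx => (INT.posDef_det_re (hpos e x hx)).1
  have hPcont : ContinuousOn (PP φ0 w) (Icc a (a + 1)) := fun t _ =>
    (INT.PP_hasDerivAt hc hwc t).continuousAt.continuousWithinAt
  have hne : (Icc a (a + 1)).Nonempty := ⟨a, le_rfl, by linarith⟩
  obtain ⟨t1, ht1, hmin⟩ := isCompact_Icc.exists_isMinOn hne hPcont
  obtain ⟨t2, ht2, hmax⟩ := isCompact_Icc.exists_isMaxOn hne hPcont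
  -- the constants
  have hcl := INT.isClosedForm_canonical hc
  obtain ⟨C, hC0, hC⟩ := exists_comparison' (b := fun e z =>
      cHess (fun z => Real.log (w e z).det.re) z) hw.toIsHermitian
    hcl.smooth hcl.form
    (fun e x hx => cHess_isHermitian
      ((hc.smooth e x hx).of_le (by exact WithTop.coe_le_coe.2 le_top)))
  obtain ⟨K, hK0, hK⟩ := hT (n * (C + (a + 1))) (PP φ0 w t1) (PP φ0 w t2) (by positivity)
    (hPpos t1 ht1)
  -- contradiction
  have hkey : ∀ t, a < t → t ≤ a + 1 → a ≤ t - 1 / (2 * K) := by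
    intro t hat hta
    obtain ⟨ψ, hψ, hψpos⟩ := haS t hat
    obtain ⟨φ, hφ, hpos, hKE⟩ := exists_KE hAY hw hψ hψpos
    have hPt : PP φ0 w t = intX fun e z => (cHess (φ e) z + (t : ℂ) • w e z).det.re :=
      INT.PP_eq hc hφ hwc t
    have htI : t ∈ Icc a (a + 1) := ⟨hat.le, hta⟩
    have hctrl := ctrl_of_KE hn hw hC0 hC (ha0.trans hat.le) (hsa.trans hat.le) hta hφ hpos hKE
      (v0 := PP φ0 w t1) (V1 := PP φ0 w t2) (by rw [← hPt]; exact hmin htI)
      (by rw [← hPt]; exact hmax htI)
    have htr := hK _ hctrl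
    refine csInf_le hSbb ⟨φ, hφ, fun e x hx => ?_⟩
    have h1 := hpos e x hx
    have h2 := C2.trace_smul_sub_posSemidef h1 (hw.posDef e x hx).posSemidef
    rw [← C2.trace_re_eq h1 (hw.posDef e x hx)] at h2
    set g := cHess (φ e) (e x) + (t : ℂ) • w e (e x) with hg
    have h3 : ((K : ℂ) • g - w e (e x)).PosSemidef := by
      have h4 : (K : ℂ) • g - w e (e x) = (((g⁻¹ * w e (e x)).trace.re : ℂ) • g - w e (e x)) +
          ((K - (g⁻¹ * w e (e x)).trace.re : ℝ) : ℂ) • g := by
        push_cast; rw [sub_smul]; abel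
      rw [h4]
      exact h2.add (posSemidef_ofReal_smul h1.posSemidef (sub_nonneg.2 (htr e x hx)))
    have h5 : cHess (φ e) (e x) + ((t - 1 / (2 * K) : ℝ) : ℂ) • w e (e x) =
        ((1 / 2 : ℝ) : ℂ) • g + ((1 / (2 * K) : ℝ) : ℂ) • ((K : ℂ) • g - w e (e x)) := by
      rw [smul_sub, smul_smul, ← Complex.ofReal_mul]
      have h6 : 1 / (2 * K) * K = 1 / 2 := by field_simp
      have h7 : ((1 / 2 : ℝ) : ℂ) + ((1 / 2 : ℝ) : ℂ) = 1 := by
        rw [← Complex.ofReal_add]; norm_num
      rw [h6, ← add_sub_assoc, ← add_smul, h7, one_smul, hg, Complex.ofReal_sub, sub_smul]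
      abel
    rw [h5]
    exact (posDef_ofReal_smul h1 (by norm_num)).add_posSemidef
      (posSemidef_ofReal_smul h3 (by positivity))
  have h1 : a ≤ a - 1 / (2 * K) := by
    refine le_of_forall_pos_lt_add fun ε hε => ?_
    have h2 := hkey (a + min (ε / 2) 1) (by
      have : 0 < min (ε / 2) 1 := lt_min (by linarith) one_pos
      linarith) (by linarith [min_le_right (ε / 2) 1])
    have h3 := min_le_left (ε / 2) 1
    linarith
  have h2 : 0 < 1 / (2 * K) := by positivity
  linarith

/-- nef classes `K_X + a[w]`, `a ≥ 0`, have positive top self-intersection -/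
def Big (w : Chart n X → Cm n → Matrix (Fin n) (Fin n) ℂ) : Prop := BigFrom w 0

/-- **Step 0** for `s = 0`: ampleness -/
theorem ample_of_big (hn : 1 ≤ n) (hw : IsKahler w) (hBig : Big w) (hT : TraceEst w 0) :
    ∃ φ : Chart n X → Cm n → ℝ, IsCanonicalMetric φ ∧
      ∀ e x, At e x → (cHess (φ e) (e x)).PosDef := by
  obtain ⟨φ, hφ, hpos⟩ := pos_of_est hn hw le_rfl hBig hT
  refine ⟨φ, hφ, fun e x hx => ?_⟩
  have := hpos e x hx
  simpa using this

omit [T2Space X] [CompactSpace X] [Nonempty X] [IsManifold 𝓘(ℂ, Cm n) ω X] in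
/-- `K_X + s[w]` Kähler for all `s > 0` means that `K_X` is nef -/
theorem nef_of_pos (h : ∀ s : ℝ, 0 < s → Pos w s) : NefCanonical w 0 := by
  intro ε hε
  obtain ⟨φ, hφ, hpos⟩ := h ε hε
  refine ⟨φ, hφ, fun e x hx => ?_⟩
  rw [zero_add]
  exact (hpos e x hx).posSemidef

theorem big_of_negHSC (hn : 1 ≤ n) (hw : IsKahler w) (hh : IsHermitian h) (hneg : NegHSC h) :
    Big w :=
  fun a ha hnef φ hφ => main n hn X w h hw hh hneg a ha hnef φ hφ

end

end Vale.Agent.P272.K.AMP.Main
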