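import Vale.Agent.P272.K.AMP.Main.Step0
import Vale.Agent.P272.K.AMP.Green2
import Vale.Agent.P272.K.AMP.H470.Stmt9
import Vale.Agent.P272.K.AMP.ABP.Mat

/-!
# Consequences of the control `Ctrl`: lower bound of `log tr_g w`, exponential integrability
-/

open scoped Manifold ContDiff ComplexOrder Topology
open Complex Set Filter MeasureTheory

set_option linter.all false

noncomputable section

namespace Vale.Agent.P272.K.AMP.Main

open INT (IsDensity intX part Part)

variable {n : ℕ} {X : Type} [TopologicalSpace X] [ChartedSpace (Cm n) X]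
  {w g : Chart n X → Cm n → Matrix (Fin n) (Fin n) ℂ}

/-- `log (det g / det w)` -/
def potX (w g : Chart n X → Cm n → Matrix (Fin n) (Fin n) ℂ) (x : X) : ℝ :=
  atX (fun e z => Real.log (g e z).det.re - Real.log (w e z).det.re) x

section
variable [IsManifold 𝓘(ℂ, Cm n) ω X]

lemma pot_change (hw : IsHermitian w) (hg : IsHermitian g) (e e' : Chart n X) (x : X)
    (hx : At e x) (hx' : At e' x) :
    Real.log (g e (e x)).det.re - Real.log (w e (e x)).det.re =
      Real.log (g e' (e' x)).det.re - Real.log (w e' (e' x)).det.re := by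
  rw [log_det_change hg hx hx', log_det_change hw hx hx']; ring

lemma pot_eq (hw : IsHermitian w) (hg : IsHermitian g) {e : Chart n X} {x : X} (hx : At e x) :
    potX w g x = Real.log (g e (e x)).det.re - Real.log (w e (e x)).det.re :=
  pot_change hw hg _ _ x (at_chartAt x) hx

lemma smoothFn_pot (hw : IsHermitian w) (hg : IsHermitian g) : SmoothFn (n := n) (potX w g) :=
  smoothFn_atX (F := fun e z => Real.log (g e z).det.re - Real.log (w e z).det.re)
    (fun e x hx => ((isCanonical_logdet hg).smooth e x hx).sub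
      ((isCanonical_logdet hw).smooth e x hx))
    fun e e' x hx hx' => pot_change hw hg e e' x hx hx'

lemma pot_ev (hw : IsHermitian w) (hg : IsHermitian g) {e : Chart n X} {x : X} (hx : At e x) :
    (fun z => potX w g (e.symm z)) =ᶠ[𝓝 (e x)]
      fun z => Real.log (g e z).det.re - Real.log (w e z).det.re := by
  filter_upwards [hx.nhds_target] with z hz
  rw [pot_eq hw hg (At.of_target hx.1 hz), e.right_inv hz]

lemma det_eq_pot (hw : IsHermitian w) (hg : IsHermitian g) {e : Chart n X} {x : X} (hx : At e x) :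
    (g e (e x)).det.re = Real.exp (potX w g x) * (w e (e x)).det.re := by
  rw [pot_eq hw hg hx, Real.exp_sub, Real.exp_log (hg.det_re_pos hx),
    Real.exp_log (hw.det_re_pos hx)]
  field_simp [(hw.det_re_pos hx).ne']

variable [T2Space X] [CompactSpace X]

lemma IX_eq_pot (hw : IsHermitian w) (hg : IsHermitian g) (f : X → ℝ) :
    IX g f = IX w (fun x => f x * Real.exp (potX w g x)) := by
  unfold IX
  refine INT.intX_congr fun e x hx => ?_
  rw [det_eq_pot hw hg hx, hx.left_inv]; ring

variable {s Λ v0 V1 : ℝ}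

lemma Ctrl.pot_le (hw : IsHermitian w) (h : Ctrl w g s Λ v0 V1) (x : X) : potX w g x ≤ Λ :=
  h.pot _ x (at_chartAt x)

/-- `log tr_g w ≥ -Λ` -/
lemma Ctrl.log_trX_ge (hn : 1 ≤ n) (hw : IsHermitian w) (hΛ : 0 ≤ Λ) (h : Ctrl w g s Λ v0 V1)
    (x : X) : 0 < trX g w x ∧ -Λ ≤ Real.log (trX g w x) := by
  haveI : Nonempty (Fin n) := ⟨⟨0, hn⟩⟩
  have hx := at_chartAt (n := n) x
  set e := chartAt (Cm n) x with he
  have hgp := h.kahler.posDef e x hx
  have hwp := hw.posDef e x hx
  have h1 := ABP.amgm_trace_inv hgp hwp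
  rw [Fintype.card_fin] at h1
  have h2 : trX g w x = ((g e (e x))⁻¹ * w e (e x)).trace.re := rfl
  have hd1 := h.kahler.toIsHermitian.det_re_pos hx
  have hd2 := hw.det_re_pos hx
  have hn' : (1 : ℝ) ≤ n := by exact_mod_cast hn
  have h3 : Real.exp (-Λ) ≤ (n : ℝ) * ((w e (e x)).det.re / (g e (e x)).det.re) ^ ((1 : ℝ) / n) := by
    have h4 : (w e (e x)).det.re / (g e (e x)).det.re = Real.exp (-(potX w g x)) := by
      rw [det_eq_pot hw h.kahler.toIsHermitian hx, Real.exp_neg]
      field_simp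
    rw [h4, ← Real.exp_mul]
    have h5 : Real.exp (-Λ) ≤ Real.exp (-(potX w g x) * (1 / n)) := by
      refine Real.exp_le_exp.2 ?_
      have h6 := h.pot_le hw x
      have h7 : potX w g x * (1 / n) ≤ Λ * (1 / n) :=
        mul_le_mul_of_nonneg_right h6 (by positivity)
      have h8 : Λ * (1 / n) ≤ Λ := by
        have : 1 / (n : ℝ) ≤ 1 := by
          rw [div_le_iff₀ (by linarith)]; linarith
        nlinarith
      linarith
    calc Real.exp (-Λ) ≤ Real.exp (-(potX w g x) * (1 / n)) := h5
      _ ≤ n * Real.exp (-(potX w g x) * (1 / n)) := le_mul_of_one_le_left (Real.exp_pos _).le hn'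
  have h4 : Real.exp (-Λ) ≤ trX g w x := by rw [h2]; exact h3.trans h1
  have h5 : 0 < trX g w x := (Real.exp_pos _).trans_le h4
  refine ⟨h5, ?_⟩
  rwa [Real.le_log_iff_exp_le h5]

/-- the exponential integrability used in Step 8-10 -/
def ExpHyp (g : Chart n X → Cm n → Matrix (Fin n) (Fin n) ℂ) (α CE : ℝ) : Prop :=
  ∀ ψ : X → ℝ, SmoothFn (n := n) ψ → (∀ x, ψ x ≤ 0) →
    (∀ e x, At e x → (addH g ψ e (e x)).PosDef) →
    3 / 4 * intX (fun e z => (g e z).det.re) ≤ IX g (fun x => Real.exp (ψ x)) →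
    IX g (fun x => Real.exp (-(α * ψ x))) ≤ CE

lemma IX_one (g : Chart n X → Cm n → Matrix (Fin n) (Fin n) ℂ) :
    IX g (fun _ => 1) = intX fun e z => (g e z).det.re := by
  unfold IX; simp

theorem expHyp_of [Nonempty X] (hE : ExpInt n X) (hw : IsHermitian w) (hv0 : 0 < v0)
    (hΛ : 0 ≤ Λ) : ∃ α : ℝ, 0 < α ∧ ∃ CE : ℝ, 0 ≤ CE ∧ ∀ g, Ctrl w g s Λ v0 V1 → ExpHyp g α CE := by
  set W : ℝ := intX fun e z => (w e z).det.re with hW
  have hWpos : 0 < W := INT.intX_pos (INT.isDensity_det hw.change hw.smooth)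
    fun e x hx => hw.det_re_pos hx
  set m0 : ℝ := Real.log (3 * v0 / (4 * W)) with hm0
  obtain ⟨α, hα, K, hK⟩ := hE w hw Λ (max Λ (-m0))
  refine ⟨α, hα, Real.exp ((1 + α) * Λ) * |K|, by positivity, ?_⟩
  intro g hg ψ hψ hψ0 hpos hmass
  have hgH := hg.kahler.toIsHermitian
  have hu := smoothFn_pot hw hgH
  set Ψ : X → ℝ := fun x => potX w g x + ψ x with hΨ
  have hΨs : SmoothFn (n := n) Ψ := sm_add hu hψ
  have cΨ := INT.SmoothFn.continuous hΨs
  have htwo : ∀ {f : Cm n → ℝ} {z}, ContDiffAt ℝ ∞ f z → ContDiffAt ℝ 2 f z :=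
    fun h => h.of_le (by exact WithTop.coe_le_coe.2 le_top)
  -- quasi-plurisubharmonicity
  have h1 : ∀ e x, At e x → (addH (fun e z => (Λ : ℂ) • w e z) Ψ e (e x)).PosSemidef := by
    intro e x hx
    have h2 := hg.upper e x hx
    have h3 := (hpos e x hx).posSemidef
    have h4 : addH (fun e z => (Λ : ℂ) • w e z) Ψ e (e x) =
        ((Λ : ℂ) • w e (e x) +
          cHess (fun z => Real.log (g e z).det.re - Real.log (w e z).det.re) (e x) - g e (e x)) +
        addH g ψ e (e x) := by
      unfold addH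
      have h5 : cHess (fun y => Ψ (e.symm y)) (e x) =
          cHess (fun y => potX w g (e.symm y)) (e x) + cHess (fun y => ψ (e.symm y)) (e x) :=
        cHess_add (htwo (hu e x hx)) (htwo (hψ e x hx))
      rw [h5, cHess_congr (pot_ev hw hgH hx)]
      abel
    rw [h4]
    exact h2.add h3
  -- upper bound
  have h2 : ∀ x, Ψ x ≤ max Λ (-m0) := fun x => by
    have := hg.pot_le hw x
    have h3 := hψ0 x
    have h4 : Ψ x = potX w g x + ψ x := rfl
    have h5 := le_max_left Λ (-m0)
    linarith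
  -- lower bound of the supremum
  have h3 : ∃ x, -(max Λ (-m0)) ≤ Ψ x := by
    by_contra hcon
    push Not at hcon
    have h4 : ∀ x, Ψ x ≤ m0 := fun x => by
      have h5 := hcon x
      have h6 := le_max_right Λ (-m0)
      linarith
    -- strict at every point: use the maximum
    obtain ⟨x0, -, hx0⟩ := isCompact_univ.exists_isMaxOn ⟨Classical.arbitrary X, Set.mem_univ _⟩
      cΨ.continuousOn
    have hmax : ∀ y, Ψ y ≤ Ψ x0 := fun y => hx0 (Set.mem_univ y)
    have h5 : Ψ x0 < m0 := by
      have h5 := hcon x0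
      have h6 := le_max_right Λ (-m0)
      linarith
    have h6 : IX g (fun x => Real.exp (ψ x)) = IX w (fun x => Real.exp (Ψ x)) := by
      rw [IX_eq_pot hw hgH]
      refine IX_congr fun x => ?_
      rw [← Real.exp_add]; congr 1; simp only [hΨ]; ring
    have h7 : IX w (fun x => Real.exp (Ψ x)) ≤ Real.exp (Ψ x0) * W := by
      have h8 : IX w (fun x => Real.exp (Ψ x)) ≤ IX w (fun _ => Real.exp (Ψ x0) * 1) :=
        IX_mono hw (Real.continuous_exp.comp cΨ) continuous_const fun x => by
          rw [mul_one]; exact Real.exp_le_exp.2 (hmax x)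
      rw [IX_const_mul, IX_one] at h8
      exact h8
    have h8 : Real.exp (Ψ x0) * W < 3 * v0 / 4 := by
      have h9 : Real.exp (Ψ x0) < Real.exp m0 := Real.exp_lt_exp.2 h5
      rw [hm0, Real.exp_log (by positivity)] at h9
      have h10 := mul_lt_mul_of_pos_right h9 hWpos
      calc _ < _ := h10
        _ = _ := by field_simp
    have h9 := hg.vol_ge
    rw [h6] at hmass
    linarith
  have h4 := hK Ψ hΨs h1 h2 h3
  have h5 : IX g (fun x => Real.exp (-(α * ψ x))) ≤
      IX w (fun x => Real.exp ((1 + α) * Λ) * Real.exp (-(α * Ψ x))) := by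
    rw [IX_eq_pot hw hgH]
    have cu := INT.SmoothFn.continuous hu
    have cψ := INT.SmoothFn.continuous hψ
    refine IX_mono hw (by fun_prop) (by fun_prop) fun x => ?_
    rw [← Real.exp_add, ← Real.exp_add]
    refine Real.exp_le_exp.2 ?_
    have h6 := hg.pot_le hw x
    have h7 : (1 + α) * potX w g x ≤ (1 + α) * Λ := mul_le_mul_of_nonneg_left h6 (by linarith)
    simp only [hΨ]
    linarith
  rw [IX_const_mul] at h5
  refine h5.trans (mul_le_mul_of_nonneg_left ?_ (Real.exp_pos _).le)
  have h6 : IX w (fun x => Real.exp (-(α * Ψ x))) =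
      intX (fun e z => Real.exp (-(α * Ψ (e.symm z))) * (w e z).det.re) := rfl
  rw [h6]
  exact h4.trans (le_abs_self K)

end

end Vale.Agent.P272.K.AMP.Main
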